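import Mathlib

/-! Averaging over one coordinate and union bound: existence of a generic point of a product. -/

namespace Vale.Agent.P321.H328

open Finset

/-- Resampling one coordinate: the number of bad points of `S^ι` times `|S|` is at most
`B * |S^ι|` if every line in direction `i` has at most `B` bad points. -/
theorem card_bad_mul_le {ι α : Type*} [Fintype ι] [DecidableEq ι] [DecidableEq α]
    (S : Finset α) (i : ι) (Bad : (ι → α) → Prop) [DecidablePred Bad] (B : ℕ)
    (hB : ∀ d : ι → α, (∀ j, d j ∈ S) →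
      (S.filter (fun x => Bad (Function.update d i x))).card ≤ B) :
    ((Fintype.piFinset (fun _ : ι => S)).filter Bad).card * S.card
      ≤ B * (Fintype.piFinset (fun _ : ι => S)).card := by
  classical
  set Om := Fintype.piFinset (fun _ : ι => S) with hOm
  have key : ∑ z ∈ Om ×ˢ S, (if Bad (Function.update z.1 i z.2) then 1 else 0)
      = ∑ z ∈ Om ×ˢ S, (if Bad z.1 then 1 else 0) := by
    refine Finset.sum_nbij' (fun z => (Function.update z.1 i z.2, z.1 i))
      (fun z => (Function.update z.1 i z.2, z.1 i)) ?_ ?_ ?_ ?_ ?_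
    · rintro ⟨d, x⟩ hz
      simp only [Finset.mem_product, hOm, Fintype.mem_piFinset] at hz ⊢
      refine ⟨fun j => ?_, hz.1 i⟩
      by_cases hj : j = i
      · subst hj; simpa using hz.2
      · simpa [Function.update_of_ne hj] using hz.1 j
    · rintro ⟨d, x⟩ hz
      simp only [Finset.mem_product, hOm, Fintype.mem_piFinset] at hz ⊢
      refine ⟨fun j => ?_, hz.1 i⟩
      by_cases hj : j = i
      · subst hj; simpa using hz.2
      · simpa [Function.update_of_ne hj] using hz.1 j
    · rintro ⟨d, x⟩ _
      simp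
    · rintro ⟨d, x⟩ _
      simp
    · rintro ⟨d, x⟩ _
      simp
  have h1 : ∑ z ∈ Om ×ˢ S, (if Bad z.1 then 1 else 0) = (Om.filter Bad).card * S.card := by
    rw [Finset.sum_product, Finset.card_filter, Finset.sum_mul]
    refine Finset.sum_congr rfl fun d _ => ?_
    change (∑ _y ∈ S, (if Bad d then 1 else 0)) = _
    rw [Finset.sum_const, smul_eq_mul, mul_comm]
  have h2 : ∑ z ∈ Om ×ˢ S, (if Bad (Function.update z.1 i z.2) then 1 else 0) ≤ B * Om.card := by
    rw [Finset.sum_product, mul_comm B, ← smul_eq_mul, ← Finset.sum_const]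
    refine Finset.sum_le_sum fun d hd => ?_
    rw [← Finset.card_filter]
    refine hB d ?_
    simpa [hOm, Fintype.mem_piFinset] using hd
  rw [← h1, ← key]; exact h2

/-- `Rare S b Bad`: at most a `b/|S|` fraction of the points of `S^ι` is bad. -/
def Rare {ι α : Type*} [Fintype ι] [DecidableEq ι] [DecidableEq α]
    (S : Finset α) (b : ℕ) (Bad : (ι → α) → Prop) : Prop :=
  ∀ A : Finset (ι → α), A ⊆ Fintype.piFinset (fun _ : ι => S) → (∀ d ∈ A, Bad d) →
    A.card * S.card ≤ b * (Fintype.piFinset (fun _ : ι => S)).card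

variable {ι α : Type*} [Fintype ι] [DecidableEq ι] [DecidableEq α]

theorem Rare.line {S : Finset α} {b : ℕ} {Bad : (ι → α) → Prop} (i : ι)
    (hB : ∀ d : ι → α, (∀ j, d j ∈ S) → ∀ T : Finset α, T ⊆ S →
      (∀ x ∈ T, Bad (Function.update d i x)) → T.card ≤ b) : Rare S b Bad := by
  classical
  intro A hA hbad
  have h := card_bad_mul_le S i Bad b (fun d hd => hB d hd _ (Finset.filter_subset _ _)
    (fun x hx => (Finset.mem_filter.1 hx).2))
  refine le_trans (Nat.mul_le_mul_right _ (Finset.card_le_card ?_)) h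
  intro d hd
  exact Finset.mem_filter.2 ⟨hA hd, hbad d hd⟩

theorem Rare.or {S : Finset α} {b c : ℕ} {P Q : (ι → α) → Prop}
    (hP : Rare S b P) (hQ : Rare S c Q) : Rare S (b + c) (fun d => P d ∨ Q d) := by
  classical
  intro A hA hbad
  have h1 := hP (A.filter P) ((Finset.filter_subset _ _).trans hA)
    (fun d hd => (Finset.mem_filter.1 hd).2)
  have h2 := hQ (A.filter Q) ((Finset.filter_subset _ _).trans hA)
    (fun d hd => (Finset.mem_filter.1 hd).2)
  have h3 : A.card ≤ (A.filter P).card + (A.filter Q).card := by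
    refine le_trans (Finset.card_le_card ?_) (Finset.card_union_le _ _)
    intro d hd
    rcases hbad d hd with h | h
    · exact Finset.mem_union_left _ (Finset.mem_filter.2 ⟨hd, h⟩)
    · exact Finset.mem_union_right _ (Finset.mem_filter.2 ⟨hd, h⟩)
  calc A.card * S.card ≤ ((A.filter P).card + (A.filter Q).card) * S.card :=
        Nat.mul_le_mul_right _ h3
    _ = (A.filter P).card * S.card + (A.filter Q).card * S.card := Nat.add_mul ..
    _ ≤ _ := Nat.add_le_add h1 h2
    _ = _ := (Nat.add_mul ..).symm

theorem Rare.exists_mem {C : Type*} {S : Finset α} {b : ℕ} (conds : Finset C)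
    {P : C → (ι → α) → Prop} (hP : ∀ c ∈ conds, Rare S b (P c)) :
    Rare S (conds.card * b) (fun d => ∃ c ∈ conds, P c d) := by
  classical
  induction conds using Finset.induction_on with
  | empty =>
    intro A _ hbad
    have : A = ∅ := by
      rw [Finset.eq_empty_iff_forall_notMem]
      intro d hd
      obtain ⟨c, hc, _⟩ := hbad d hd
      simp at hc
    subst this
    simp
  | insert c s hc ih =>
    have h := (hP c (Finset.mem_insert_self _ _)).or
      (ih (fun c' hc' => hP c' (Finset.mem_insert_of_mem hc')))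
    intro A hA hbad
    have h' := h A hA (fun d hd => by
      obtain ⟨c', hc', hb⟩ := hbad d hd
      rcases Finset.mem_insert.1 hc' with rfl | h1
      · exact Or.inl hb
      · exact Or.inr ⟨c', h1, hb⟩)
    rw [Finset.card_insert_of_notMem hc, Nat.succ_mul, Nat.add_comm (s.card * b)]
    exact h'

theorem Rare.mono {S : Finset α} {b c : ℕ} {P Q : (ι → α) → Prop}
    (hP : Rare S b P) (hbc : b ≤ c) (hQ : ∀ d, (∀ j, d j ∈ S) → Q d → P d) : Rare S c Q := by
  intro A hA hbad
  exact (hP A hA (fun d hd => hQ d (Fintype.mem_piFinset.1 (hA hd)) (hbad d hd))).trans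
    (Nat.mul_le_mul_right _ hbc)

theorem Rare.and_prop {S : Finset α} {b : ℕ} {p : Prop} {P : (ι → α) → Prop}
    (h : p → Rare S b P) : Rare S b (fun d => p ∧ P d) := by
  by_cases hp : p
  · exact (h hp).mono le_rfl fun d _ hd => hd.2
  · intro A _ hbad
    have : A = ∅ := by
      rw [Finset.eq_empty_iff_forall_notMem]
      intro d hd
      exact hp (hbad d hd).1
    subst this
    simp

theorem Rare.exists_not {S : Finset α} {b : ℕ} {P : (ι → α) → Prop}
    (hP : Rare S b P) (hb : b < S.card) : ∃ d : ι → α, (∀ j, d j ∈ S) ∧ ¬ P d := by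
  by_contra hno
  push Not at hno
  have hSpos : 0 < S.card := lt_of_le_of_lt (Nat.zero_le _) hb
  have hpos : 0 < (Fintype.piFinset (fun _ : ι => S)).card := by
    rw [Fintype.card_piFinset]
    exact Finset.prod_pos fun _ _ => hSpos
  have h := hP _ (Finset.Subset.refl _) (fun d hd => hno d (Fintype.mem_piFinset.1 hd))
  rw [mul_comm] at h
  have := Nat.le_of_mul_le_mul_right h hpos
  omega

end Vale.Agent.P321.H328
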