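import Mathlib

/-! An explicit lower bound for the number of primes in `(P/8, P]`. -/

namespace Vale.Agent.P321.H328

open Finset Real

/-- The primes in `(P/8, P]`. -/
noncomputable def primesIn (P : ℕ) : Finset ℕ :=
  (Finset.range (P + 1)).filter (fun p => p.Prime ∧ P / 8 < p)

theorem primeCounting_le_add (P : ℕ) :
    Nat.primeCounting P ≤ Nat.primeCounting (P / 8) + (primesIn P).card := by
  classical
  unfold Nat.primeCounting Nat.primeCounting' primesIn
  rw [Nat.count_eq_card_filter_range, Nat.count_eq_card_filter_range]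
  refine (Finset.card_le_card ?_).trans (Finset.card_union_le _ _)
  intro p hp
  rw [Finset.mem_filter, Finset.mem_range] at hp
  rw [Finset.mem_union, Finset.mem_filter, Finset.mem_range, Finset.mem_filter, Finset.mem_range]
  by_cases h : P / 8 < p
  · exact Or.inr ⟨hp.1, hp.2, h⟩
  · exact Or.inl ⟨by omega, hp.2⟩

theorem card_primesIn (P : ℕ) (hP : 2 ^ 36 ≤ P) :
    P ≤ 4 * (Nat.log 2 P + 1) * (primesIn P).card := by
  have hP' : (2:ℝ) ^ 36 ≤ P := by exact_mod_cast hP
  have hP0 : (0:ℝ) < P := lt_of_lt_of_le (by positivity) hP'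
  have hPn : (68719476736:ℝ) ≤ P := by
    have h : ((2:ℝ) ^ 36) = 68719476736 := by norm_num
    rw [h] at hP'
    exact hP'
  set s : ℝ := √√(P:ℝ) with hs
  have hs2 : s ^ 2 = √(P:ℝ) := Real.sq_sqrt (Real.sqrt_nonneg _)
  have hs4 : s ^ 4 = P := by
    rw [show s ^ 4 = (s ^ 2) ^ 2 by ring, hs2, Real.sq_sqrt hP0.le]
  have hs0 : 0 ≤ s := Real.sqrt_nonneg _
  have hs512 : 512 ≤ s := by
    by_contra hcon
    push Not at hcon
    have : s ^ 4 < 512 ^ 4 := pow_lt_pow_left₀ hcon hs0 (by norm_num)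
    rw [hs4] at this
    norm_num at this
    linarith
  have hspos : 0 < s := by linarith
  set l : ℝ := Real.log P with hl
  have hlog2 : (0.69:ℝ) < Real.log 2 := by have := Real.log_two_gt_d9; linarith
  have hlog2' : Real.log 2 < 0.7 := by have := Real.log_two_lt_d9; linarith
  have hl36 : 36 * Real.log 2 ≤ l := by
    rw [hl, show (36:ℝ) * Real.log 2 = Real.log (2 ^ 36) by rw [Real.log_pow]; norm_num]
    exact Real.log_le_log (by positivity) hP'
  have hl0 : 0 < l := by linarith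
  have hls : l ≤ 4 * s := by
    rw [hl, ← hs4, Real.log_pow]
    have := Real.log_le_sub_one_of_pos hspos
    push_cast
    linarith
  -- lower bound for `π P`
  have h1 := Chebyshev.pi_ge P
  have h2 : Real.log ((P:ℝ) + 1) ≤ 2 * l := by
    rw [hl, show 2 * Real.log (P:ℝ) = Real.log ((P:ℝ) ^ 2) by rw [Real.log_pow]; norm_num]
    refine Real.log_le_log (by positivity) ?_
    nlinarith
  have h3 : (P * Real.log 2) / l - 2 ≤ Nat.primeCounting P := by
    refine le_trans ?_ h1
    rw [sub_div, ← hl]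
    have : Real.log ((P:ℝ) + 1) / l ≤ 2 := by
      rw [div_le_iff₀ hl0]; exact h2
    linarith
  -- upper bound for `π (P/8)`
  have hx : (1:ℝ) < (P:ℝ) / 8 := by
    rw [lt_div_iff₀ (by norm_num)]
    linarith
  have h4 := Chebyshev.pi_le_log4_mul_div hx
  have hfl : ⌊(P:ℝ) / 8⌋₊ = P / 8 := by
    have := Nat.floor_div_natCast (P:ℝ) 8
    rw [Nat.floor_natCast] at this
    exact_mod_cast this
  rw [hfl] at h4
  have h5 : (11/24:ℝ) * l ≤ Real.log √((P:ℝ) / 8) := by
    rw [Real.log_sqrt (by positivity), Real.log_div (by positivity) (by norm_num), ← hl,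
      show Real.log 8 = 3 * Real.log 2 by
        rw [show (8:ℝ) = 2 ^ 3 by norm_num, Real.log_pow]; norm_num]
    linarith
  have hlog4 : Real.log 4 = 2 * Real.log 2 := by
    rw [show (4:ℝ) = 2 ^ 2 by norm_num, Real.log_pow]; norm_num
  have h6 : Real.log 4 * ((P:ℝ) / 8) / Real.log √((P:ℝ) / 8) ≤ (6/11) * (P * Real.log 2) / l := by
    rw [hlog4, div_le_div_iff₀ (lt_of_lt_of_le (by positivity) h5) hl0]
    have h7 : (0:ℝ) ≤ P * Real.log 2 := by positivity
    nlinarith [mul_le_mul_of_nonneg_left h5 h7]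
  have h7 : √((P:ℝ) / 8) ≤ s ^ 2 := by
    rw [hs2]
    exact Real.sqrt_le_sqrt (by linarith)
  have h8 : (Nat.primeCounting (P/8) : ℝ) ≤ (6/11) * (P * Real.log 2) / l + s ^ 2 := by
    linarith
  have h9 : (Nat.primeCounting P : ℝ) ≤ Nat.primeCounting (P / 8) + (primesIn P).card := by
    exact_mod_cast primeCounting_le_add P
  have h10 : (5/11:ℝ) * (P * Real.log 2) / l - s ^ 2 - 2 ≤ (primesIn P).card := by
    have : (5/11:ℝ) * (P * Real.log 2) / l = (P * Real.log 2) / l
      - (6/11) * (P * Real.log 2) / l := by ring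
    linarith
  have h11 : s ^ 2 + 2 ≤ (9/44:ℝ) * (P * Real.log 2) / l := by
    rw [le_div_iff₀ hl0, ← hs4]
    have h12 : (s ^ 2 + 2) * l ≤ (s ^ 2 + 2) * (4 * s) :=
      mul_le_mul_of_nonneg_left hls (by positivity)
    have h13 : (9/44:ℝ) * (s ^ 4 * 0.69) ≤ (9/44:ℝ) * (s ^ 4 * Real.log 2) := by
      have : 0 ≤ s ^ 4 := by positivity
      nlinarith
    have h14 : (s ^ 2 + 2) * (4 * s) ≤ (9/44:ℝ) * (s ^ 4 * 0.69) := by
      have e2 : 512 * s ^ 3 ≤ s ^ 4 := by
        rw [pow_succ s 3, mul_comm]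
        exact mul_le_mul_of_nonneg_left hs512 (by positivity)
      have e3 : s ≤ s ^ 3 := by
        calc s = s * 1 := (mul_one s).symm
          _ ≤ s * (s * s) := mul_le_mul_of_nonneg_left (by nlinarith) hs0
          _ = s ^ 3 := by ring
      have e4 : (s ^ 2 + 2) * (4 * s) = 4 * s ^ 3 + 8 * s := by ring
      rw [e4]
      linarith
    linarith
  have h15 : (1/4:ℝ) * (P * Real.log 2) / l ≤ (primesIn P).card := by
    have : (1/4:ℝ) * (P * Real.log 2) / l = (5/11:ℝ) * (P * Real.log 2) / l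
      - (9/44:ℝ) * (P * Real.log 2) / l := by ring
    linarith
  have h16 : l ≤ (Nat.log 2 P + 1 : ℕ) * Real.log 2 := by
    rw [hl, ← Real.log_pow]
    refine Real.log_le_log hP0 ?_
    exact_mod_cast (Nat.lt_pow_succ_log_self (by norm_num) P).le
  have h17 : (P : ℝ) ≤ 4 * (Nat.log 2 P + 1 : ℕ) * (primesIn P).card := by
    rw [div_le_iff₀ hl0] at h15
    have h18 : ((primesIn P).card : ℝ) * l ≤ (primesIn P).card *
        ((Nat.log 2 P + 1 : ℕ) * Real.log 2) :=
      mul_le_mul_of_nonneg_left h16 (by positivity)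
    have h19 : (P:ℝ) * Real.log 2 ≤ (4 * (Nat.log 2 P + 1 : ℕ) * (primesIn P).card)
      * Real.log 2 := by
      calc (P:ℝ) * Real.log 2 = 4 * ((1/4) * (P * Real.log 2)) := by ring
        _ ≤ 4 * ((primesIn P).card * ((Nat.log 2 P + 1 : ℕ) * Real.log 2)) :=
            mul_le_mul_of_nonneg_left (h15.trans h18) (by norm_num)
        _ = _ := by ring
    exact le_of_mul_le_mul_right h19 (by linarith)
  exact_mod_cast h17

end Vale.Agent.P321.H328
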