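import Vale.Agent.P321.H328.GenMain
import Vale.Agent.P321.H328.GenPrimes

/-! The genericity theorem with explicit parameters. -/

namespace Vale.Agent.P321.H328

open Finset

theorem count_aux (k n A G M Y L R Q P X lg : ℕ) (hA : 1 ≤ A) (hlg : 1 ≤ lg)
    (hG : G ≤ 4 * (k + 1) ^ 3 * A) (hM2 : (2 * M + 1) ^ 2 ≤ 9 * A) (hM3 : (2 * M + 1) ^ 3 ≤ 27 * A)
    (hY1 : 1 ≤ Y) (hR : 4 * R ≤ 128 * Y * L) (hQ : 4 * Q ≤ 2048 * Y * L ^ 2)
    (hYX : X * Y ≤ P)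
    (hX : 2 ^ 21 * (k + 1) ^ 6 * (n + 1) * A * lg ≤ X) :
    4 * lg * (k * k + k * k * n * G * 9 * (4 * (2 * (2 * R) / L + 1))
      + k * k * (2 * M + 1) ^ 2 * (4 * (2 * R / L + 1))
      + k * k * k * n * G * 2 * (4 * (2 * (2 * Q) / L ^ 2 + 1))
      + k * k * k * (2 * M + 1) ^ 3 * (4 * (2 * (2 * Q) / L ^ 2 + 1))) < P := by
  set K := k + 1 with hK
  have hK1 : 1 ≤ K := by omega
  have hkK : k ≤ K := by omega
  have hR1 : 4 * (2 * (2 * R) / L + 1) ≤ 516 * Y := by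
    have : 2 * (2 * R) / L ≤ 128 * Y := by
      refine Nat.div_le_of_le_mul ?_
      rw [mul_comm L]; omega
    omega
  have hR2 : 4 * (2 * R / L + 1) ≤ 516 * Y := by
    have : 2 * R / L ≤ 128 * Y := by
      refine Nat.div_le_of_le_mul ?_
      rw [mul_comm L]; omega
    omega
  have hQ1 : 4 * (2 * (2 * Q) / L ^ 2 + 1) ≤ 8196 * Y := by
    have : 2 * (2 * Q) / L ^ 2 ≤ 2048 * Y := by
      refine Nat.div_le_of_le_mul ?_
      rw [mul_comm (L ^ 2)]; omega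
    omega
  have hK3 : 1 ≤ K ^ 3 := Nat.one_le_pow _ _ hK1
  have hk2 : k * k ≤ K ^ 3 := by
    calc k * k ≤ K * K * K := by
          calc k * k = k * k * 1 := (mul_one _).symm
            _ ≤ K * K * K := Nat.mul_le_mul (Nat.mul_le_mul hkK hkK) hK1
      _ = K ^ 3 := by ring
  have hk3 : k * k * k ≤ K ^ 3 := by
    calc k * k * k ≤ K * K * K := Nat.mul_le_mul (Nat.mul_le_mul hkK hkK) hkK
      _ = K ^ 3 := by ring
  set Z := K ^ 6 * (n + 1) * A * Y with hZ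
  have hn : n ≤ n + 1 := by omega
  have hn1 : 1 ≤ n + 1 := by omega
  have t0 : k * k ≤ Z := by
    calc k * k ≤ K ^ 3 := hk2
      _ = K ^ 3 * 1 * 1 * 1 * 1 := by ring
      _ ≤ K ^ 3 * K ^ 3 * (n + 1) * A * Y :=
        Nat.mul_le_mul (Nat.mul_le_mul (Nat.mul_le_mul (Nat.mul_le_mul le_rfl hK3) hn1) hA) hY1
      _ = Z := by rw [hZ]; ring
  have t1 : k * k * n * G * 9 * (4 * (2 * (2 * R) / L + 1)) ≤ 18576 * Z := by
    calc k * k * n * G * 9 * (4 * (2 * (2 * R) / L + 1))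
        ≤ K ^ 3 * (n + 1) * (4 * K ^ 3 * A) * 9 * (516 * Y) :=
          Nat.mul_le_mul (Nat.mul_le_mul_right _ (Nat.mul_le_mul (Nat.mul_le_mul hk2 hn) hG)) hR1
      _ = 18576 * Z := by rw [hZ]; ring
  have t2 : k * k * (2 * M + 1) ^ 2 * (4 * (2 * R / L + 1)) ≤ 4644 * Z := by
    calc k * k * (2 * M + 1) ^ 2 * (4 * (2 * R / L + 1))
        ≤ K ^ 3 * (9 * A) * (516 * Y) :=
          Nat.mul_le_mul (Nat.mul_le_mul hk2 hM2) hR2
      _ = (K ^ 3 * 1 * 1 * A * Y) * 4644 := by ring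
      _ ≤ (K ^ 3 * K ^ 3 * (n + 1) * A * Y) * 4644 :=
          Nat.mul_le_mul_right _ (Nat.mul_le_mul_right _ (Nat.mul_le_mul_right _
            (Nat.mul_le_mul (Nat.mul_le_mul le_rfl hK3) hn1)))
      _ = 4644 * Z := by rw [hZ]; ring
  have t3 : k * k * k * n * G * 2 * (4 * (2 * (2 * Q) / L ^ 2 + 1)) ≤ 65568 * Z := by
    calc k * k * k * n * G * 2 * (4 * (2 * (2 * Q) / L ^ 2 + 1))
        ≤ K ^ 3 * (n + 1) * (4 * K ^ 3 * A) * 2 * (8196 * Y) :=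
          Nat.mul_le_mul (Nat.mul_le_mul_right _ (Nat.mul_le_mul (Nat.mul_le_mul hk3 hn) hG)) hQ1
      _ = 65568 * Z := by rw [hZ]; ring
  have t4 : k * k * k * (2 * M + 1) ^ 3 * (4 * (2 * (2 * Q) / L ^ 2 + 1)) ≤ 221292 * Z := by
    calc k * k * k * (2 * M + 1) ^ 3 * (4 * (2 * (2 * Q) / L ^ 2 + 1))
        ≤ K ^ 3 * (27 * A) * (8196 * Y) :=
          Nat.mul_le_mul (Nat.mul_le_mul hk3 hM3) hQ1
      _ = (K ^ 3 * 1 * 1 * A * Y) * 221292 := by ring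
      _ ≤ (K ^ 3 * K ^ 3 * (n + 1) * A * Y) * 221292 :=
          Nat.mul_le_mul_right _ (Nat.mul_le_mul_right _ (Nat.mul_le_mul_right _
            (Nat.mul_le_mul (Nat.mul_le_mul le_rfl hK3) hn1)))
      _ = 221292 * Z := by rw [hZ]; ring
  have hZ1 : 1 ≤ Z := by
    rw [hZ]
    have h1 : 1 ≤ K ^ 6 := Nat.one_le_pow _ _ hK1
    have h2 := Nat.mul_le_mul (Nat.mul_le_mul (Nat.mul_le_mul h1 hn1) hA) hY1
    simpa using h2
  calc 4 * lg * (k * k + k * k * n * G * 9 * (4 * (2 * (2 * R) / L + 1))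
      + k * k * (2 * M + 1) ^ 2 * (4 * (2 * R / L + 1))
      + k * k * k * n * G * 2 * (4 * (2 * (2 * Q) / L ^ 2 + 1))
      + k * k * k * (2 * M + 1) ^ 3 * (4 * (2 * (2 * Q) / L ^ 2 + 1)))
      ≤ 4 * lg * (310081 * Z) := Nat.mul_le_mul_left _ (by omega)
    _ < 2 ^ 21 * (lg * Z) := by
        have : 1 ≤ lg * Z := Nat.mul_le_mul hlg hZ1
        have e : 4 * lg * (310081 * Z) = 1240324 * (lg * Z) := by ring
        rw [e]
        omega
    _ = (2 ^ 21 * K ^ 6 * (n + 1) * A * lg) * Y := by rw [hZ]; ring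
    _ ≤ X * Y := Nat.mul_le_mul_right _ hX
    _ ≤ P := hYX

theorem cube_aux (k : ℕ) : k + k * k + k * k * k < 4 * (k + 1) ^ 3 := by
  have : 4 * (k + 1) ^ 3 = 4 * (k * k * k) + 12 * (k * k) + 12 * k + 4 := by ring
  rw [this]; omega

theorem mult_aux (k m n : ℕ) : k * 5 ^ m * (5 ^ m) ^ n * 1
      + k * k * (3 ^ m * (3 ^ m) ^ n) ^ 2 * 1
      + k * k * k * (2 ^ m * (2 ^ m) ^ n) ^ 3 * 1 < 4 * (k + 1) ^ 3 * 9 ^ (m * (n + 1)) := by
  have e1 : (3 ^ m * (3 ^ m) ^ n) ^ 2 = 9 ^ (m * (n + 1)) := by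
    rw [← pow_mul, ← pow_add, ← pow_mul, show (9:ℕ) = 3 ^ 2 by norm_num, ← pow_mul]
    congr 1; ring
  have e2 : 5 ^ m * (5 ^ m) ^ n ≤ 9 ^ (m * (n + 1)) := by
    rw [← pow_mul, ← pow_add, show m + m * n = m * (n + 1) by ring]
    exact Nat.pow_le_pow_left (by norm_num) _
  have e3 : (2 ^ m * (2 ^ m) ^ n) ^ 3 ≤ 9 ^ (m * (n + 1)) := by
    rw [← pow_mul, ← pow_add, ← pow_mul, mul_comm _ 3, pow_mul,
      show m + m * n = m * (n + 1) by ring]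
    exact Nat.pow_le_pow_left (by norm_num) _
  have e0 : 1 ≤ 9 ^ (m * (n + 1)) := Nat.one_le_pow _ _ (by norm_num)
  set N9 := 9 ^ (m * (n + 1)) with hN9
  calc k * 5 ^ m * (5 ^ m) ^ n * 1 + k * k * (3 ^ m * (3 ^ m) ^ n) ^ 2 * 1
        + k * k * k * (2 ^ m * (2 ^ m) ^ n) ^ 3 * 1
      = k * (5 ^ m * (5 ^ m) ^ n) + k * k * (3 ^ m * (3 ^ m) ^ n) ^ 2
        + k * k * k * (2 ^ m * (2 ^ m) ^ n) ^ 3 := by ring
    _ ≤ k * N9 + k * k * N9 + k * k * k * N9 := by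
        rw [e1]
        exact Nat.add_le_add (Nat.add_le_add (Nat.mul_le_mul_left _ e2) le_rfl)
          (Nat.mul_le_mul_left _ e3)
    _ = (k + k * k + k * k * k) * N9 := by ring
    _ < (4 * (k + 1) ^ 3) * N9 := by
        refine Nat.mul_lt_mul_of_pos_right ?_ (by omega)
        exact cube_aux k

/-- **Genericity theorem**, general form: `A` bounds `9^(m(|E|+1))` and `27^m`. -/
theorem exists_generic_A {k m : ℕ} {E : Type*} [Fintype E] [DecidableEq E]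
    (inc : E → Finset (Fin k)) (hinc : ∀ e, (inc e).card = 2) (A X P : ℕ)
    (h9A : 9 ^ (m * (Fintype.card E + 1)) ≤ A) (h3mA : (3 ^ m) ^ 3 ≤ A)
    (hX : 2 ^ 21 * (k + 1) ^ 6 * (Fintype.card E + 1) * A * (Nat.log 2 P + 1) ≤ X)
    (hXP : 1000 * X ≤ P) (hP36 : 2 ^ 36 ≤ P)
    (hTE : Fintype.card E * m * 1 * (4 * (k + 1) ^ 3 * 9 ^ (m * (Fintype.card E + 1))) * P ^ 2
      ≤ P ^ 3 / X) :
    ∃ (d : Fin k → ℕ) (g : E → Fin m → ℕ), (∀ i, P < 8 * d i ∧ d i ≤ P) ∧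
      Generic inc m (P ^ 2 / X) (P ^ 3 / X)
        (4 * (k + 1) ^ 3 * 9 ^ (m * (Fintype.card E + 1))) d g := by
  classical
  set n := Fintype.card E with hn
  set lg := Nat.log 2 P + 1 with hlg
  set G := 4 * (k + 1) ^ 3 * 9 ^ (m * (n + 1)) with hG
  set Y := P / X with hY
  set L := P / 8 with hL
  have h3m1 : 1 ≤ 3 ^ m := Nat.one_le_pow _ _ (by norm_num)
  have hA1 : 1 ≤ A := le_trans (Nat.one_le_pow _ _ h3m1) h3mA
  have hK1 : 1 ≤ (k + 1) ^ 6 := Nat.one_le_pow _ _ (by omega)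
  have hK3 : 1 ≤ (k + 1) ^ 3 := Nat.one_le_pow _ _ (by omega)
  have hlg1 : 1 ≤ lg := by omega
  have hX21 : 2 ^ 21 ≤ X := by
    refine le_trans ?_ hX
    have h2 := Nat.mul_le_mul (Nat.mul_le_mul (Nat.mul_le_mul (Nat.mul_le_mul
      (le_refl (2 ^ 21)) hK1) (by omega : 1 ≤ n + 1)) hA1) hlg1
    simpa using h2
  have hXL : X ≤ L := by
    rw [hL, Nat.le_div_iff_mul_le (by norm_num)]
    omega
  -- everything of the form `c (k+1)^6 (n+1) A` with `c ≤ 2^21` is at most `X`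
  have hbase : 2 ^ 21 * (k + 1) ^ 6 * (n + 1) * A ≤ X := by
    refine le_trans ?_ hX
    exact Nat.le_mul_of_pos_right _ hlg1
  have hK36 : (k + 1) ^ 3 ≤ (k + 1) ^ 6 := Nat.pow_le_pow_right (by omega) (by norm_num)
  have hGX : G ≤ X := by
    calc G ≤ 2 ^ 21 * (k + 1) ^ 6 * (n + 1) * A := by
          rw [hG]
          calc 4 * (k + 1) ^ 3 * 9 ^ (m * (n + 1)) = 4 * (k + 1) ^ 3 * 1 * 9 ^ (m * (n + 1)) := by
                ring
            _ ≤ 2 ^ 21 * (k + 1) ^ 6 * (n + 1) * A :=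
              Nat.mul_le_mul (Nat.mul_le_mul (Nat.mul_le_mul (by norm_num) hK36) (by omega)) h9A
      _ ≤ X := hbase
  have h3m2 : (3 ^ m) ^ 2 ≤ A := le_trans (Nat.pow_le_pow_right h3m1 (by norm_num)) h3mA
  have h3mA' : 3 ^ m ≤ A := by
    calc 3 ^ m = (3 ^ m) ^ 1 := (pow_one _).symm
      _ ≤ (3 ^ m) ^ 3 := Nat.pow_le_pow_right h3m1 (by norm_num)
      _ ≤ A := h3mA
  have hMX : 2 * 3 ^ m ≤ X := by
    calc 2 * 3 ^ m = 2 * 1 * 1 * 3 ^ m := by ring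
      _ ≤ 2 ^ 21 * (k + 1) ^ 6 * (n + 1) * A :=
        Nat.mul_le_mul (Nat.mul_le_mul (Nat.mul_le_mul (by norm_num) hK1) (by omega)) h3mA'
      _ ≤ X := hbase
  have hL16 : P ≤ 16 * L := by omega
  have hL0 : 0 < L := by omega
  have hYX : X * Y ≤ P := Nat.mul_div_le _ _
  have hY1 : 1 ≤ Y := by
    rw [hY, Nat.le_div_iff_mul_le (by omega)]; omega
  have hPY : P ≤ 2 * Y * X := by
    have h1 : P < X * (Y + 1) := by
      rw [hY]; exact Nat.lt_mul_div_succ P (by omega)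
    calc P ≤ X * (Y + 1) := h1.le
      _ ≤ X * (2 * Y) := Nat.mul_le_mul_left _ (by omega)
      _ = 2 * Y * X := by ring
  have hR : P ^ 2 / X ≤ 2 * Y * P := by
    refine Nat.div_le_of_le_mul ?_
    calc P ^ 2 = P * P := pow_two P
      _ ≤ P * (2 * Y * X) := Nat.mul_le_mul_left _ hPY
      _ = X * (2 * Y * P) := by ring
  have hQ : P ^ 3 / X ≤ 2 * Y * P ^ 2 := by
    refine Nat.div_le_of_le_mul ?_
    calc P ^ 3 = P ^ 2 * P := by ring
      _ ≤ P ^ 2 * (2 * Y * X) := Nat.mul_le_mul_left _ hPY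
      _ = X * (2 * Y * P ^ 2) := by ring
  have hP2L : P ^ 2 ≤ 256 * L ^ 2 := by
    calc P ^ 2 ≤ (16 * L) ^ 2 := Nat.pow_le_pow_left hL16 2
      _ = 256 * L ^ 2 := by ring
  have hP3L : P ^ 3 ≤ 4096 * L ^ 3 := by
    calc P ^ 3 ≤ (16 * L) ^ 3 := Nat.pow_le_pow_left hL16 3
      _ = 4096 * L ^ 3 := by ring
  have hR2 : 2 * (P ^ 2 / X) ≤ L ^ 2 := by
    have h1 : P ^ 2 / X ≤ P ^ 2 / 2 ^ 21 := Nat.div_le_div_left hX21 (by norm_num)
    omega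
  have hQ2 : 2 * (P ^ 3 / X) * 64 ≤ L ^ 3 := by
    have h1 : P ^ 3 / X ≤ P ^ 3 / 2 ^ 21 := Nat.div_le_div_left hX21 (by norm_num)
    omega
  have hGL : G ≤ L := hGX.trans hXL
  have hLbig : 2 ^ 32 ≤ L := by omega
  have hL23 : L ^ 2 ≤ L ^ 3 := Nat.pow_le_pow_right (by omega) (by norm_num)
  have hL13 : L ≤ L ^ 3 := by
    calc L = L ^ 1 := (pow_one _).symm
      _ ≤ L ^ 3 := Nat.pow_le_pow_right (by omega) (by norm_num)
  have hGU : G * P ^ 2 ≤ 256 * L ^ 3 := by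
    calc G * P ^ 2 ≤ L * (256 * L ^ 2) := Nat.mul_le_mul hGL hP2L
      _ = 256 * L ^ 3 := by ring
  have hL5 : 2 ^ 64 * L ^ 3 ≤ L ^ 5 := by
    calc 2 ^ 64 * L ^ 3 = (2 ^ 32) ^ 2 * L ^ 3 := by norm_num
      _ ≤ L ^ 2 * L ^ 3 := Nat.mul_le_mul_right _ (Nat.pow_le_pow_left hLbig 2)
      _ = L ^ 5 := by ring
  have hL3pos : 0 < L ^ 3 := by positivity
  have main := exists_generic_of_card (m := m) inc hinc (primesIn P) L P (3 ^ m) G
    (P ^ 2 / X) (P ^ 3 / X) (by omega) ?_ hGL le_rfl (hMX.trans hXL) hR2 ?_ ?_ ?_ hTE ?_ ?_ ?_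
  · obtain ⟨d, g, hdS, hgen⟩ := main
    refine ⟨d, g, fun i => ?_, hgen⟩
    have h := Finset.mem_filter.1 (hdS i)
    have h1 := Finset.mem_range.1 h.1
    omega
  · intro x hx
    have h := Finset.mem_filter.1 hx
    have h1 := Finset.mem_range.1 h.1
    exact ⟨h.2.1, h.2.2, by omega⟩
  · omega
  · omega
  · calc 3 ^ m ≤ X := by omega
      _ ≤ P := hXL.trans (by omega)
      _ = 1 * P := (one_mul _).symm
      _ ≤ G * P ^ 2 := by
        refine Nat.mul_le_mul ?_ ?_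
        · rw [hG]; exact Nat.succ_le_of_lt (by positivity)
        · calc P = P ^ 1 := (pow_one _).symm
            _ ≤ P ^ 2 := Nat.pow_le_pow_right (by omega) (by norm_num)
  · have h1 := hMX.trans hXL
    omega
  · -- multipliers
    rw [← hn]
    exact mult_aux k m n
  · -- periods
    have h1 := card_primesIn P hP36
    have h2 := count_aux k n A G (3 ^ m) Y L (P ^ 2 / X) (P ^ 3 / X) P X lg hA1 hlg1 ?_ ?_ ?_
      hY1 ?_ ?_ hYX hX
    · rw [← hn]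
      have h3 := lt_of_lt_of_le h2 h1
      exact Nat.lt_of_mul_lt_mul_left h3
    · rw [hG]; exact Nat.mul_le_mul_left _ h9A
    · calc (2 * 3 ^ m + 1) ^ 2 ≤ (3 * 3 ^ m) ^ 2 := Nat.pow_le_pow_left (by omega) 2
        _ = 9 * (3 ^ m) ^ 2 := by ring
        _ ≤ 9 * A := Nat.mul_le_mul_left _ h3m2
    · calc (2 * 3 ^ m + 1) ^ 3 ≤ (3 * 3 ^ m) ^ 3 := Nat.pow_le_pow_left (by omega) 3
        _ = 27 * (3 ^ m) ^ 3 := by ring
        _ ≤ 27 * A := Nat.mul_le_mul_left _ h3mA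
    · calc 4 * (P ^ 2 / X) ≤ 4 * (2 * Y * P) := Nat.mul_le_mul_left _ hR
        _ ≤ 4 * (2 * Y * (16 * L)) := by gcongr
        _ = 128 * Y * L := by ring
    · calc 4 * (P ^ 3 / X) ≤ 4 * (2 * Y * P ^ 2) := Nat.mul_le_mul_left _ hQ
        _ ≤ 4 * (2 * Y * (256 * L ^ 2)) := by gcongr
        _ = 2048 * Y * L ^ 2 := by ring

/-- **Genericity theorem.**  If `X ≥ 2^21 (k+1)^6 (|E|+1) 27^(m(|E|+1)) (log₂ P + 1)` and
`X² ≤ P`, there are `k` distinct primes in `(P/8, P]` and multipliers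
`≤ G = 4 (k+1)^3 9^(m(|E|+1))` which are generic at the ranges `P²/X` (two trains) and `P³/X`
(three trains). -/
theorem exists_generic {k m : ℕ} {E : Type*} [Fintype E] [DecidableEq E]
    (inc : E → Finset (Fin k)) (hinc : ∀ e, (inc e).card = 2) (X P : ℕ)
    (hX : 2 ^ 21 * (k + 1) ^ 6 * (Fintype.card E + 1) * 27 ^ (m * (Fintype.card E + 1))
      * (Nat.log 2 P + 1) ≤ X) (hXP : X ^ 2 ≤ P) :
    ∃ (d : Fin k → ℕ) (g : E → Fin m → ℕ), (∀ i, P < 8 * d i ∧ d i ≤ P) ∧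
      Generic inc m (P ^ 2 / X) (P ^ 3 / X)
        (4 * (k + 1) ^ 3 * 9 ^ (m * (Fintype.card E + 1))) d g := by
  classical
  set n := Fintype.card E with hn
  set A := 27 ^ (m * (n + 1)) with hA
  have hA1 : 1 ≤ A := Nat.one_le_pow _ _ (by norm_num)
  have hK1 : 1 ≤ (k + 1) ^ 6 := Nat.one_le_pow _ _ (by omega)
  have hlg1 : 1 ≤ Nat.log 2 P + 1 := by omega
  have hX21 : 2 ^ 21 ≤ X := by
    refine le_trans ?_ hX
    have h2 := Nat.mul_le_mul (Nat.mul_le_mul (Nat.mul_le_mul (Nat.mul_le_mul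
      (le_refl (2 ^ 21)) hK1) (by omega : 1 ≤ n + 1)) hA1) hlg1
    simpa using h2
  have hXX : X * X ≤ P := by rw [← pow_two]; exact hXP
  have hbase : 2 ^ 21 * (k + 1) ^ 6 * (n + 1) * A ≤ X := by
    refine le_trans ?_ hX
    exact Nat.le_mul_of_pos_right _ hlg1
  have hK36 : (k + 1) ^ 3 ≤ (k + 1) ^ 6 := Nat.pow_le_pow_right (by omega) (by norm_num)
  refine exists_generic_A inc hinc A X P (Nat.pow_le_pow_left (by norm_num) _) ?_ hX ?_ ?_ ?_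
  · rw [← pow_mul, mul_comm m 3, pow_mul, hA]
    exact Nat.pow_le_pow_right (by norm_num) (Nat.le_mul_of_pos_right _ (by omega))
  · calc 1000 * X ≤ X * X := Nat.mul_le_mul_right _ (by omega)
      _ ≤ P := hXX
  · calc 2 ^ 36 ≤ (2 ^ 21) ^ 2 := by norm_num
      _ ≤ X ^ 2 := Nat.pow_le_pow_left hX21 2
      _ ≤ P := hXP
  · rw [← hn]
    set G := 4 * (k + 1) ^ 3 * 9 ^ (m * (n + 1)) with hG
    rw [Nat.le_div_iff_mul_le (by omega)]
    have h1 : n * m * 1 * G ≤ X := by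
      have hm3 : m ≤ 3 ^ m := (Nat.lt_pow_self (by norm_num)).le
      have h39 : 3 ^ m * 9 ^ (m * (n + 1)) ≤ A := by
        calc 3 ^ m * 9 ^ (m * (n + 1)) ≤ 3 ^ (m * (n + 1)) * 9 ^ (m * (n + 1)) :=
              Nat.mul_le_mul_right _ (Nat.pow_le_pow_right (by norm_num)
                (Nat.le_mul_of_pos_right _ (by omega)))
          _ = A := by rw [hA, ← Nat.mul_pow]
      calc n * m * 1 * G = 4 * (k + 1) ^ 3 * n * (m * 9 ^ (m * (n + 1))) := by rw [hG]; ring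
        _ ≤ 2 ^ 21 * (k + 1) ^ 6 * (n + 1) * A :=
          Nat.mul_le_mul (Nat.mul_le_mul (Nat.mul_le_mul (by norm_num) hK36) (by omega))
            ((Nat.mul_le_mul_right _ hm3).trans h39)
        _ ≤ X := hbase
    calc n * m * 1 * G * P ^ 2 * X = (n * m * 1 * G) * X * P ^ 2 := by ring
      _ ≤ X * X * P ^ 2 := Nat.mul_le_mul_right _ (Nat.mul_le_mul_right _ h1)
      _ ≤ P * P ^ 2 := Nat.mul_le_mul_right _ hXX
      _ = P ^ 3 := by ring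

end Vale.Agent.P321.H328
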