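import Mathlib

/-! Digit sums, tops of trains, and elementary facts used in the genericity lemma. -/

namespace Vale.Agent.P321.H328

open Finset

/-- The direction-`0` part of a top: digits to base `3`. -/
def T0 {m : ℕ} (a : Fin m → ℤ) : ℤ := ∑ b, a b * 3 ^ (b : ℕ)

/-- The period of direction `e`: product of the periods of the trains in `inc e`. -/
def dd {k : ℕ} {E : Type*} (inc : E → Finset (Fin k)) (d : Fin k → ℕ) (e : E) : ℤ :=
  ∏ i ∈ inc e, (d i : ℤ)

/-- The part of a top coming from the digits in the directions `e`. -/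
def TE {k m : ℕ} {E : Type*} [Fintype E] (inc : E → Finset (Fin k)) (d : Fin k → ℕ)
    (g : E → Fin m → ℕ) (s : E → Fin m → ℤ) : ℤ :=
  ∑ e, ∑ b, s e b * g e b * dd inc d e

/-- The period system `d`, with multipliers `g ≤ G`, is generic at the ranges `R` (two trains)
and `Q` (three trains). -/
structure Generic {k : ℕ} {E : Type*} [Fintype E] (inc : E → Finset (Fin k)) (m R Q G : ℕ)
    (d : Fin k → ℕ) (g : E → Fin m → ℕ) : Prop where
  prime : ∀ i, (d i).Prime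
  inj : Function.Injective d
  one_le : ∀ e b, 1 ≤ g e b
  le : ∀ e b, g e b ≤ G
  gen1 : ∀ (i : Fin k) (a : Fin m → ℤ) (s : E → Fin m → ℤ), (∀ b, |a b| ≤ 2) →
    (∀ e b, |s e b| ≤ 2) → (a ≠ 0 ∨ ∃ e b, i ∉ inc e ∧ s e b ≠ 0) →
    ¬ (d i : ℤ) ∣ T0 a + TE inc d g s
  gen2 : ∀ (i j : Fin k), i ≠ j → ∀ (h : ℤ), |h| ≤ R →
    ∀ (a : Fin m → ℤ) (s : E → Fin m → ℤ) (a' : Fin m → ℤ) (s' : E → Fin m → ℤ),
    (∀ b, |a b| ≤ 1) → (∀ e b, |s e b| ≤ 1) → (∀ b, |a' b| ≤ 1) → (∀ e b, |s' e b| ≤ 1) →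
    (d i : ℤ) ∣ h - (T0 a + TE inc d g s) → (d j : ℤ) ∣ h - (T0 a' + TE inc d g s') →
    ∃ c : Fin m → ℤ, (∀ b, |c b| ≤ 1) ∧ h = T0 c
  gen3 : ∀ (i : Fin 3 → Fin k), Function.Injective i → ∀ (t : ℤ), |t| ≤ Q →
    ∀ (a : Fin 3 → Fin m → ℤ) (s : Fin 3 → E → Fin m → ℤ),
    (∀ l b, a l b = 0 ∨ a l b = 1) → (∀ l e b, s l e b = 0 ∨ s l e b = 1) →
    (∀ l, (d (i l) : ℤ) ∣ t - (T0 (a l) + TE inc d g (s l))) →
    ∃ (a₀ : Fin m → ℤ) (s₀ : E → Fin m → ℤ), (∀ b, a₀ b = 0 ∨ a₀ b = 1) ∧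
      (∀ e b, s₀ e b = 0 ∨ s₀ e b = 1) ∧ t = T0 a₀ + TE inc d g s₀

/-! ### The base-3 part -/

theorem T0_succ {m : ℕ} (a : Fin (m + 1) → ℤ) :
    T0 a = a 0 + 3 * T0 (fun b : Fin m => a b.succ) := by
  unfold T0
  rw [Fin.sum_univ_succ, Finset.mul_sum]
  congr 1
  · simp
  · refine Finset.sum_congr rfl fun b _ => ?_
    rw [Fin.val_succ, pow_succ]; ring

theorem T0_sub {m : ℕ} (a b : Fin m → ℤ) : T0 (fun i => a i - b i) = T0 a - T0 b := by
  unfold T0
  rw [← Finset.sum_sub_distrib]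
  exact Finset.sum_congr rfl fun i _ => by ring

theorem abs_T0_le {m : ℕ} (c : ℤ) (a : Fin m → ℤ) (ha : ∀ b, |a b| ≤ c) :
    2 * |T0 a| ≤ c * (3 ^ m - 1) := by
  induction m with
  | zero => simp [T0]
  | succ m ih =>
    rw [T0_succ]
    have h1 := ih (fun b : Fin m => a b.succ) (fun b => ha _)
    have h2 := abs_add_le (a 0) (3 * T0 (fun b : Fin m => a b.succ))
    have h3 := ha 0
    rw [abs_mul, abs_of_pos (by norm_num : (0:ℤ) < 3)] at h2
    rw [pow_succ]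
    nlinarith

theorem T0_ne_zero {m : ℕ} (a : Fin m → ℤ) (ha : ∀ b, |a b| ≤ 2) (h : a ≠ 0) : T0 a ≠ 0 := by
  induction m with
  | zero => exact absurd (Subsingleton.elim a 0) h
  | succ m ih =>
    intro h0
    rw [T0_succ] at h0
    have h1 := abs_le.1 (ha 0)
    have h2 : a 0 = 0 := by omega
    have h3 : T0 (fun b : Fin m => a b.succ) = 0 := by omega
    refine ih (fun b : Fin m => a b.succ) (fun b => ha _) ?_ h3
    intro h4
    apply h
    funext b
    refine Fin.cases h2 (fun b' => ?_) b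
    exact congrFun h4 b'

/-! ### The direction part -/

section
variable {k m : ℕ} {E : Type*} (inc : E → Finset (Fin k))

theorem dd_update (d : Fin k → ℕ) (i : Fin k) (x : ℕ) (e : E) (h : i ∉ inc e) :
    dd inc (Function.update d i x) e = dd inc d e := by
  unfold dd
  refine Finset.prod_congr rfl fun c hc => ?_
  rw [Function.update_of_ne]
  rintro rfl
  exact h hc

theorem dvd_dd (d : Fin k → ℕ) (i : Fin k) (e : E) (h : i ∈ inc e) : (d i : ℤ) ∣ dd inc d e :=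
  Finset.dvd_prod_of_mem (fun i => (d i : ℤ)) h

theorem not_dvd_dd (d : Fin k → ℕ) (hp : ∀ i, (d i).Prime) (hinj : Function.Injective d)
    (i : Fin k) (e : E) (h : i ∉ inc e) : ¬ (d i : ℤ) ∣ dd inc d e := by
  intro hd
  have hp' : Prime (d i : ℤ) := Nat.prime_iff_prime_int.1 (hp i)
  obtain ⟨c, hc, hdc⟩ := (Prime.dvd_finsetProd_iff hp' _).1 hd
  have h2 : d i ∣ d c := by exact_mod_cast hdc
  have h3 := (Nat.prime_dvd_prime_iff_eq (hp i) (hp c)).1 h2
  have := hinj h3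
  subst this
  exact h hc

theorem dd_eq (hinc : ∀ e, (inc e).card = 2) (e : E) :
    ∃ a b : Fin k, a ≠ b ∧ inc e = {a, b} ∧ ∀ d : Fin k → ℕ, dd inc d e = (d a : ℤ) * (d b : ℤ) := by
  classical
  obtain ⟨a, b, hab, h⟩ := Finset.card_eq_two.1 (hinc e)
  refine ⟨a, b, hab, h, fun d => ?_⟩
  unfold dd
  rw [h, Finset.prod_pair hab]

theorem dd_le (hinc : ∀ e, (inc e).card = 2) (d : Fin k → ℕ) (U : ℕ) (hU : ∀ i, d i ≤ U)
    (e : E) : dd inc d e ≤ (U : ℤ) ^ 2 := by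
  obtain ⟨a, b, -, -, h⟩ := dd_eq inc hinc e
  rw [h, pow_two]
  exact mul_le_mul (by exact_mod_cast hU a) (by exact_mod_cast hU b) (by positivity)
    (by positivity)

theorem lt_dd (hinc : ∀ e, (inc e).card = 2) (d : Fin k → ℕ) (L : ℕ) (hL : ∀ i, L < d i)
    (e : E) : (L : ℤ) ^ 2 < dd inc d e := by
  obtain ⟨a, b, -, -, h⟩ := dd_eq inc hinc e
  rw [h, pow_two]
  have ha : (L : ℤ) < d a := by exact_mod_cast hL a
  have hb : (L : ℤ) < d b := by exact_mod_cast hL b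
  nlinarith [(by positivity : (0:ℤ) ≤ (L:ℤ))]

theorem dd_nonneg (d : Fin k → ℕ) (e : E) : 0 ≤ dd inc d e :=
  Finset.prod_nonneg fun _ _ => by positivity

variable [Fintype E]

theorem TE_sub (d : Fin k → ℕ) (g : E → Fin m → ℕ) (s t : E → Fin m → ℤ) :
    TE inc d g (fun e b => s e b - t e b) = TE inc d g s - TE inc d g t := by
  unfold TE
  rw [← Finset.sum_sub_distrib]
  refine Finset.sum_congr rfl fun e _ => ?_
  rw [← Finset.sum_sub_distrib]
  exact Finset.sum_congr rfl fun b _ => by ring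

/-- Only the digits of the directions not containing `i` are seen modulo `d i`. -/
theorem dvd_TE_sub (d : Fin k → ℕ) (g : E → Fin m → ℕ) (i : Fin k) (s t : E → Fin m → ℤ)
    (h : ∀ e, i ∉ inc e → ∀ b, s e b = t e b) :
    (d i : ℤ) ∣ TE inc d g s - TE inc d g t := by
  rw [← TE_sub]
  unfold TE
  refine Finset.dvd_sum fun e _ => Finset.dvd_sum fun b _ => ?_
  by_cases hi : i ∈ inc e
  · exact Dvd.dvd.mul_left (dvd_dd inc d i e hi) _
  · simp [h e hi b]

theorem abs_TE_le (hinc : ∀ e, (inc e).card = 2) (d : Fin k → ℕ) (g : E → Fin m → ℕ)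
    (G U c : ℕ) (hU : ∀ i, d i ≤ U) (hg : ∀ e b, g e b ≤ G) (s : E → Fin m → ℤ)
    (hs : ∀ e b, |s e b| ≤ c) :
    |TE inc d g s| ≤ (Fintype.card E * m * c * G * U ^ 2 : ℕ) := by
  unfold TE
  have h1 : ∀ e b, |s e b * g e b * dd inc d e| ≤ (c * G * U ^ 2 : ℕ) := by
    intro e b
    rw [abs_mul, abs_mul, abs_of_nonneg (dd_nonneg inc d e),
      abs_of_nonneg (by positivity : (0:ℤ) ≤ (g e b : ℤ))]
    push_cast
    refine mul_le_mul (mul_le_mul (hs e b) (by exact_mod_cast hg e b) (by positivity)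
      (by positivity)) (dd_le inc hinc d U hU e) (dd_nonneg inc d e) (by positivity)
  calc |∑ e, ∑ b, s e b * g e b * dd inc d e|
      ≤ ∑ e, |∑ b, s e b * g e b * dd inc d e| := Finset.abs_sum_le_sum_abs _ _
    _ ≤ ∑ e : E, ∑ b : Fin m, |s e b * g e b * dd inc d e| :=
        Finset.sum_le_sum fun e _ => Finset.abs_sum_le_sum_abs _ _
    _ ≤ ∑ e : E, ∑ b : Fin m, ((c * G * U ^ 2 : ℕ) : ℤ) :=
        Finset.sum_le_sum fun e _ => Finset.sum_le_sum fun b _ => h1 e b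
    _ = _ := by
        simp only [Finset.sum_const, Finset.card_univ, Fintype.card_fin, nsmul_eq_mul]
        push_cast
        ring

end

/-! ### Counting -/

/-- A set of integers in `[-H, H]` with all differences divisible by `D`. -/
theorem card_le_of_dvd_sub (A : Finset ℤ) (H D : ℕ) (hD : 0 < D) (hH : ∀ h ∈ A, |h| ≤ H)
    (hdvd : ∀ h ∈ A, ∀ h' ∈ A, (D : ℤ) ∣ h - h') : A.card ≤ 2 * H / D + 1 := by
  classical
  rcases A.eq_empty_or_nonempty with rfl | hne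
  · simp
  set h0 := A.min' hne with hh0
  have h0A : h0 ∈ A := Finset.min'_mem _ _
  have hsub : A.image (fun h => ((h - h0) / D).toNat) ⊆ Finset.range (2 * H / D + 1) := by
    intro x hx
    obtain ⟨h, hh, rfl⟩ := Finset.mem_image.1 hx
    rw [Finset.mem_range, Nat.lt_succ_iff]
    have h1 := abs_le.1 (hH h hh)
    have h2 := abs_le.1 (hH h0 h0A)
    have h3 : (h - h0) / (D : ℤ) ≤ ((2 * H / D : ℕ) : ℤ) := by
      push_cast
      exact Int.ediv_le_ediv (by exact_mod_cast hD) (by linarith)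
    exact Int.toNat_le.2 h3
  have hinj : Set.InjOn (fun h => ((h - h0) / (D:ℤ)).toNat) A := by
    intro x hx y hy hxy
    have hx0 : h0 ≤ x := Finset.min'_le _ _ hx
    have hy0 : h0 ≤ y := Finset.min'_le _ _ hy
    obtain ⟨u, hu⟩ := hdvd x hx h0 h0A
    obtain ⟨v, hv⟩ := hdvd y hy h0 h0A
    have hD' : (0:ℤ) < D := by exact_mod_cast hD
    simp only [hu, hv, Int.mul_ediv_cancel_left _ hD'.ne'] at hxy
    have hu0 : 0 ≤ u := by
      by_contra h; push Not at h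
      nlinarith
    have hv0 : 0 ≤ v := by
      by_contra h; push Not at h
      nlinarith
    have : u = v := by omega
    subst this
    omega
  calc A.card = (A.image (fun h => ((h - h0) / (D:ℤ)).toNat)).card :=
        (Finset.card_image_of_injOn hinj).symm
    _ ≤ (Finset.range (2 * H / D + 1)).card := Finset.card_le_card hsub
    _ = _ := Finset.card_range _

/-- At most four primes `> L` divide a nonzero integer of size `< L^5`. -/
theorem card_primes_dvd_le (T : Finset ℕ) (L : ℕ) (hL : 1 ≤ L) (hT : ∀ x ∈ T, x.Prime ∧ L < x)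
    (z : ℤ) (hz : z ≠ 0) (hzL : |z| < (L : ℤ) ^ 5) (hd : ∀ x ∈ T, (x : ℤ) ∣ z) : T.card ≤ 4 := by
  have h1 : ∏ x ∈ T, x ∣ z.natAbs := by
    refine Finset.prod_primes_dvd _ (fun x hx => Nat.prime_iff.1 (hT x hx).1) fun x hx => ?_
    exact Int.natCast_dvd.1 (hd x hx)
  have h2 : ∏ x ∈ T, x ≤ z.natAbs := Nat.le_of_dvd (Int.natAbs_pos.2 hz) h1
  have h3 : L ^ T.card ≤ ∏ x ∈ T, x := by
    rw [← Finset.prod_const]
    exact Finset.prod_le_prod' fun x hx => (hT x hx).2.le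
  have h4 : z.natAbs < L ^ 5 := by
    have : (z.natAbs : ℤ) < ((L ^ 5 : ℕ) : ℤ) := by
      rw [Int.natCast_natAbs]; push_cast; exact hzL
    exact_mod_cast this
  by_contra hcon
  push Not at hcon
  have h5 : L ^ 5 ≤ L ^ T.card := Nat.pow_le_pow_right hL hcon
  omega

theorem card_primes_le (T : Finset ℕ) (L : ℕ) (hL : 1 ≤ L) (hT : ∀ x ∈ T, x.Prime ∧ L < x)
    (A : Finset ℤ) (c : ℤ) (hA : ∀ h ∈ A, |h - c| < (L : ℤ) ^ 5)
    (hd : ∀ x ∈ T, ∃ h ∈ A, h ≠ c ∧ (x : ℤ) ∣ h - c) : T.card ≤ 4 * A.card := by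
  classical
  have hsub : T ⊆ A.biUnion (fun h => T.filter (fun x : ℕ => h ≠ c ∧ (x:ℤ) ∣ h - c)) := by
    intro x hx
    obtain ⟨h, hh, hhc, hdx⟩ := hd x hx
    exact Finset.mem_biUnion.2 ⟨h, hh, Finset.mem_filter.2 ⟨hx, hhc, hdx⟩⟩
  calc T.card ≤ _ := Finset.card_le_card hsub
    _ ≤ ∑ h ∈ A, (T.filter (fun x : ℕ => h ≠ c ∧ (x:ℤ) ∣ h - c)).card := Finset.card_biUnion_le
    _ ≤ ∑ h ∈ A, 4 := by
        refine Finset.sum_le_sum fun h hh => ?_
        by_cases hhc : h = c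
        · have : T.filter (fun x : ℕ => h ≠ c ∧ (x:ℤ) ∣ h - c) = ∅ := by
            rw [Finset.filter_eq_empty_iff]
            intro x _ hx
            exact hx.1 hhc
          rw [this]; simp
        · refine card_primes_dvd_le _ L hL (fun x hx => hT x (Finset.mem_filter.1 hx).1)
            (h - c) (sub_ne_zero.2 hhc) (hA h hh) fun x hx => (Finset.mem_filter.1 hx).2.2
    _ = 4 * A.card := by rw [Finset.sum_const, smul_eq_mul, mul_comm]

end Vale.Agent.P321.H328
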