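import Vale.Agent.P321.H328.GenMult

/-! The genericity theorem, abstract form. -/

namespace Vale.Agent.P321.H328

open Finset

variable {k m : ℕ} {E : Type*} [Fintype E]

theorem TE_zero (inc : E → Finset (Fin k)) (d : Fin k → ℕ) (g : E → Fin m → ℕ) :
    TE inc d g 0 = 0 := by
  simp [TE]

theorem eq_zero_of_dvd_of_abs_lt {z n : ℤ} (h : n ∣ z) (hz : |z| < n) : z = 0 :=
  Int.eq_zero_of_abs_lt_dvd h hz

theorem perm3 : ∀ l l' : Fin 3, l ≠ l' →
    ∃ σ : Fin 3 → Fin 3, Function.Injective σ ∧ σ 0 = l ∧ σ 1 = l' := by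
  decide

theorem exists_not_mem_inc (inc : E → Finset (Fin k)) (hinc : ∀ e, (inc e).card = 2)
    (i : Fin 3 → Fin k) (hi : Function.Injective i) (e : E) : ∃ l, i l ∉ inc e := by
  classical
  by_contra hcon
  push Not at hcon
  have h1 : (Finset.univ.image i) ⊆ inc e := by
    intro x hx
    obtain ⟨l, _, rfl⟩ := Finset.mem_image.1 hx
    exact hcon l
  have h2 := Finset.card_le_card h1
  rw [Finset.card_image_of_injective _ hi, Finset.card_univ, Fintype.card_fin, hinc e] at h2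
  omega

theorem generic_of (inc : E → Finset (Fin k)) (hinc : ∀ e, (inc e).card = 2)
    (L U M G R Q : ℕ) (d : Fin k → ℕ) (g : E → Fin m → ℕ)
    (hp : ∀ i, (d i).Prime) (hLd : ∀ i, L < d i) (hdU : ∀ i, d i ≤ U)
    (hg : ∀ e b, 1 ≤ g e b ∧ g e b ≤ G)
    (hd : NoCoinc inc M G R Q d) (hgood : GoodMult inc m R Q d g)
    (hM : 3 ^ m ≤ M) (hML : 2 * M ≤ L) (hR : 2 * R ≤ L ^ 2)
    (hTE : Fintype.card E * m * 1 * G * U ^ 2 ≤ Q) (hQ : 2 * Q + M < L ^ 3) :
    Generic inc m R Q G d g := by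
  classical
  have hp' : ∀ i, Prime (d i : ℤ) := fun i => Nat.prime_iff_prime_int.1 (hp i)
  have hLd' : ∀ i, (L : ℤ) < d i := fun i => by exact_mod_cast hLd i
  have hMZ : ((3:ℤ) ^ m) ≤ M := by exact_mod_cast hM
  have hMLZ : (2:ℤ) * M ≤ L := by exact_mod_cast hML
  have hcop : ∀ i j, i ≠ j → IsCoprime (d i : ℤ) (d j : ℤ) := by
    intro i j hij
    rw [Nat.isCoprime_iff_coprime]
    exact (Nat.coprime_primes (hp _) (hp _)).2 (fun h => hij (hd.inj h))
  have hT01 : ∀ a : Fin m → ℤ, (∀ b, |a b| ≤ 1) → |T0 a| ≤ M := by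
    intro a ha
    have h1 := abs_T0_le 1 a ha
    have := abs_nonneg (T0 a)
    linarith
  refine ⟨hp, hd.inj, fun e b => (hg e b).1, fun e b => (hg e b).2, ?_, ?_, ?_⟩
  · -- gen1
    intro i a s ha hs hor hdvd
    by_cases hes : ∃ e b, i ∉ inc e ∧ s e b ≠ 0
    · exact hgood.g1 i a s ha hs hes hdvd
    · have ha0 : a ≠ 0 := by
        rcases hor with h | h
        · exact h
        · exact absurd h hes
      push Not at hes
      have h1 := dvd_TE_sub inc d g i s 0 (fun e he b => hes e b he)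
      rw [TE_zero, sub_zero] at h1
      have h2 : (d i : ℤ) ∣ T0 a := (dvd_add_left h1).1 hdvd
      have h3 := abs_T0_le 2 a ha
      have h4 : T0 a = 0 := eq_zero_of_dvd_of_abs_lt h2 (by
        have := hLd' i
        have := abs_nonneg (T0 a)
        linarith)
      exact T0_ne_zero a ha ha0 h4
  · -- gen2
    intro i j hij h hh a s a' s' ha hs ha' hs' h1 h2
    by_cases hA : ∃ e b, i ∉ inc e ∧ s e b ≠ 0
    · exact absurd h2 (hgood.g2 i j hij a s a' s' ha hs ha' hs' hA h hh h1)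
    by_cases hB : ∃ e b, j ∉ inc e ∧ s' e b ≠ 0
    · exact absurd h1 (hgood.g2 j i hij.symm a' s' a s ha' hs' ha hs hB h hh h2)
    push Not at hA hB
    have e1 := dvd_TE_sub inc d g i s 0 (fun e he b => hA e b he)
    have e2 := dvd_TE_sub inc d g j s' 0 (fun e he b => hB e b he)
    rw [TE_zero, sub_zero] at e1 e2
    have f1 : (d i : ℤ) ∣ h - T0 a := by
      have := dvd_add h1 e1
      rwa [show h - (T0 a + TE inc d g s) + TE inc d g s = h - T0 a by ring] at this
    have f2 : (d j : ℤ) ∣ h - T0 a' := by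
      have := dvd_add h2 e2
      rwa [show h - (T0 a' + TE inc d g s') + TE inc d g s' = h - T0 a' by ring] at this
    by_cases haa : T0 a = T0 a'
    · refine ⟨a, ha, ?_⟩
      rw [← haa] at f2
      have h3 := (hcop i j hij).mul_dvd f1 f2
      have h4 : h - T0 a = 0 := eq_zero_of_dvd_of_abs_lt h3 (by
        have h5 := abs_sub h (T0 a)
        have h6 := hT01 a ha
        have h7 : ((2 * R : ℕ) : ℤ) ≤ ((L ^ 2 : ℕ) : ℤ) := by exact_mod_cast hR
        push_cast at h7
        have h8 := hLd' i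
        have h9 := hLd' j
        have h10 : (1:ℤ) ≤ (3:ℤ) ^ m := one_le_pow₀ (by norm_num)
        nlinarith)
      linarith
    · exact absurd f2 (hd.c2 i j hij _ _ (hT01 a ha) (hT01 a' ha') haa h hh f1)
  · -- gen3
    intro i hi t ht a s ha hs hdv
    have ha1 : ∀ l b, |a l b| ≤ 1 := by
      intro l b
      rcases ha l b with h | h <;> simp [h]
    have hcons : ∀ l l' e b, i l ∉ inc e → i l' ∉ inc e → s l e b = s l' e b := by
      by_contra hcon
      push Not at hcon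
      obtain ⟨l, l', e, b, h1, h2, h3⟩ := hcon
      have hkey : ∀ l l' : Fin 3, i l ∉ inc e → i l' ∉ inc e → s l e b = 1 → s l' e b = 0 →
          False := by
        intro l l' h1 h2 h3 h4
        have hll' : l ≠ l' := by rintro rfl; rw [h3] at h4; norm_num at h4
        obtain ⟨σ, hσ, hσ0, hσ1⟩ := perm3 l l' hll'
        refine hgood.g3 (i ∘ σ) (hi.comp hσ) (a ∘ σ) (s ∘ σ) (fun l b => ha _ b)
          (fun l e b => hs _ e b) ⟨e, b, ?_, ?_, ?_, ?_⟩ t ht (fun l => hdv (σ l))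
        · simpa [hσ0] using h1
        · simpa [hσ1] using h2
        · simpa [hσ0] using h3
        · simpa [hσ1] using h4
      rcases hs l e b with h4 | h4 <;> rcases hs l' e b with h5 | h5
      · exact h3 (by rw [h4, h5])
      · exact hkey l' l h2 h1 h5 h4
      · exact hkey l l' h1 h2 h4 h5
      · exact h3 (by rw [h4, h5])
    choose lsel hlsel using exists_not_mem_inc inc hinc i hi
    set s₀ : E → Fin m → ℤ := fun e b => s (lsel e) e b with hs₀
    have hTl : ∀ l, (d (i l) : ℤ) ∣ (t - TE inc d g s₀) - T0 (a l) := by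
      intro l
      have h1 := dvd_TE_sub inc d g (i l) (s l) s₀ (fun e he b => hcons l (lsel e) e b he (hlsel e))
      have h2 := dvd_add (hdv l) h1
      rwa [show t - (T0 (a l) + TE inc d g (s l)) + (TE inc d g (s l) - TE inc d g s₀)
        = (t - TE inc d g s₀) - T0 (a l) by ring] at h2
    have hs₀1 : ∀ e b, s₀ e b = 0 ∨ s₀ e b = 1 := fun e b => hs _ e b
    have hTEb := abs_TE_le inc hinc d g G U 1 hdU (fun e b => (hg e b).2) s₀ (by
      intro e b
      rcases hs₀1 e b with h | h <;> simp [h])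
    have ht' : |t - TE inc d g s₀| ≤ 2 * Q := by
      have h1 := abs_sub t (TE inc d g s₀)
      have h2 : ((Fintype.card E * m * 1 * G * U ^ 2 : ℕ) : ℤ) ≤ (Q : ℤ) := by exact_mod_cast hTE
      linarith
    by_cases hEq : ∀ l, T0 (a l) = T0 (a 0)
    · refine ⟨a 0, s₀, ha 0, hs₀1, ?_⟩
      have e0 := hTl 0
      have e1 := hTl 1
      have e2 := hTl 2
      rw [hEq 1] at e1
      rw [hEq 2] at e2
      have h01 : i 0 ≠ i 1 := fun h => by simpa using hi h
      have h02 : i 0 ≠ i 2 := fun h => by simpa using hi h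
      have h12 : i 1 ≠ i 2 := fun h => by simpa using hi h
      have h3 := (hcop _ _ h01).mul_dvd e0 e1
      have h4 := (IsCoprime.mul_left (hcop _ _ h02) (hcop _ _ h12)).mul_dvd h3 e2
      have h5 : t - TE inc d g s₀ - T0 (a 0) = 0 := eq_zero_of_dvd_of_abs_lt h4 (by
        have h6 := abs_sub (t - TE inc d g s₀) (T0 (a 0))
        have h7 := hT01 (a 0) (ha1 0)
        have h8 : ((2 * Q + M : ℕ) : ℤ) < ((L ^ 3 : ℕ) : ℤ) := by exact_mod_cast hQ
        push_cast at h8
        have h9 : (L:ℤ) ^ 3 ≤ (d (i 0) : ℤ) * d (i 1) * d (i 2) := by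
          rw [pow_succ, pow_two]
          have := hLd' (i 0)
          have := hLd' (i 1)
          have := hLd' (i 2)
          have hL0 : (0:ℤ) ≤ L := by positivity
          gcongr
        linarith)
      linarith
    · push Not at hEq
      obtain ⟨l, hl⟩ := hEq
      have hl0 : l ≠ 0 := by rintro rfl; exact hl rfl
      obtain ⟨σ, hσ, hσ0, hσ1⟩ := perm3 l 0 hl0
      exact absurd (fun l => hTl (σ l)) (hd.c4 (i ∘ σ) (hi.comp hσ) (fun l => T0 (a (σ l)))
        (fun l => hT01 _ (ha1 _)) (by simpa [hσ0, hσ1] using hl) (t - TE inc d g s₀) ht')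

/-- **Genericity, abstract form**: a large enough set `S` of primes in `(L, U]` contains a
generic period system. -/
theorem exists_generic_of_card [DecidableEq E] (inc : E → Finset (Fin k))
    (hinc : ∀ e, (inc e).card = 2)
    (S : Finset ℕ) (L U M G R Q : ℕ) (hL : 1 ≤ L)
    (hS : ∀ x ∈ S, x.Prime ∧ L < x ∧ x ≤ U) (hG : G ≤ L) (hM : 3 ^ m ≤ M) (hML : 2 * M ≤ L)
    (hR : 2 * R ≤ L ^ 2)
    (hRs : 2 * R + G * U ^ 2 < L ^ 5) (hQs : 2 * Q + G * U ^ 2 < L ^ 5) (hG1 : M ≤ G * U ^ 2)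
    (hTE : Fintype.card E * m * 1 * G * U ^ 2 ≤ Q) (hQ : 2 * Q + M < L ^ 3)
    (hcardG : k * 5 ^ m * (5 ^ m) ^ Fintype.card E * 1
      + k * k * (3 ^ m * (3 ^ m) ^ Fintype.card E) ^ 2 * 1
      + k * k * k * (2 ^ m * (2 ^ m) ^ Fintype.card E) ^ 3 * 1 < G)
    (hcard : k * k + k * k * Fintype.card E * G * 9 * (4 * (2 * (2 * R) / L + 1))
      + k * k * (2 * M + 1) ^ 2 * (4 * (2 * R / L + 1))
      + k * k * k * Fintype.card E * G * 2 * (4 * (2 * (2 * Q) / L ^ 2 + 1))
      + k * k * k * (2 * M + 1) ^ 3 * (4 * (2 * (2 * Q) / L ^ 2 + 1)) < S.card) :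
    ∃ (d : Fin k → ℕ) (g : E → Fin m → ℕ), (∀ i, d i ∈ S) ∧ Generic inc m R Q G d g := by
  obtain ⟨d, hdS, hd⟩ := exists_noCoinc inc hinc S L U M G R Q hL hS hG hML hR hRs hQs hG1 hcard
  have hM1 : 1 ≤ 3 ^ m := Nat.one_le_pow _ _ (by norm_num)
  obtain ⟨g, hg, hgood⟩ := exists_goodMult (m := m) inc M G R Q d (fun i => (hS _ (hdS i)).1)
    (fun i => lt_of_le_of_lt hG (hS _ (hdS i)).2.1)
    (fun i => lt_of_le_of_lt (by omega) (hS _ (hdS i)).2.1) hd hcardG
  exact ⟨d, g, hdS, generic_of inc hinc L U M G R Q d g (fun i => (hS _ (hdS i)).1)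
    (fun i => (hS _ (hdS i)).2.1) (fun i => (hS _ (hdS i)).2.2) hg hd hgood hM hML hR hTE hQ⟩

end Vale.Agent.P321.H328
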