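import Vale.Agent.P321.H328.GenPeriods

/-! Existence of generic multipliers for given periods. -/

namespace Vale.Agent.P321.H328

open Finset

variable {k m : ℕ} {E : Type*} [Fintype E] [DecidableEq E]

theorem TE_update_sub (inc : E → Finset (Fin k)) (d : Fin k → ℕ) (γ : E × Fin m → ℕ)
    (p : E × Fin m) (x y : ℕ) (s : E → Fin m → ℤ) :
    TE inc d (fun e b => Function.update γ p x (e, b)) s
      - TE inc d (fun e b => Function.update γ p y (e, b)) s
      = s p.1 p.2 * ((x : ℤ) - y) * dd inc d p.1 := by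
  classical
  unfold TE
  rw [← Finset.sum_sub_distrib, Finset.sum_eq_single p.1]
  · rw [← Finset.sum_sub_distrib, Finset.sum_eq_single p.2]
    · simp only [Prod.mk.eta, Function.update_self]
      ring
    · intro b _ hb
      have : (p.1, b) ≠ p := fun h => hb (by rw [← h])
      simp only [Function.update_of_ne this, sub_self]
    · simp
  · intro e _ he
    rw [sub_eq_zero]
    refine Finset.sum_congr rfl fun b _ => ?_
    have : (e, b) ≠ p := fun h => he (by rw [← h])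
    simp only [Function.update_of_ne this]
  · simp

/-- The conditions on the multipliers. -/
structure GoodMult (inc : E → Finset (Fin k)) (m R Q : ℕ) (d : Fin k → ℕ)
    (g : E → Fin m → ℕ) : Prop where
  g1 : ∀ (i : Fin k) (a : Fin m → ℤ) (s : E → Fin m → ℤ), (∀ b, |a b| ≤ 2) →
    (∀ e b, |s e b| ≤ 2) → (∃ e b, i ∉ inc e ∧ s e b ≠ 0) → ¬ (d i : ℤ) ∣ T0 a + TE inc d g s
  g2 : ∀ (i j : Fin k), i ≠ j →
    ∀ (a : Fin m → ℤ) (s : E → Fin m → ℤ) (a' : Fin m → ℤ) (s' : E → Fin m → ℤ),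
    (∀ b, |a b| ≤ 1) → (∀ e b, |s e b| ≤ 1) → (∀ b, |a' b| ≤ 1) → (∀ e b, |s' e b| ≤ 1) →
    (∃ e b, i ∉ inc e ∧ s e b ≠ 0) → ∀ (h : ℤ), |h| ≤ R →
    (d i : ℤ) ∣ h - (T0 a + TE inc d g s) → ¬ (d j : ℤ) ∣ h - (T0 a' + TE inc d g s')
  g3 : ∀ (i : Fin 3 → Fin k), Function.Injective i →
    ∀ (a : Fin 3 → Fin m → ℤ) (s : Fin 3 → E → Fin m → ℤ),
    (∀ l b, a l b = 0 ∨ a l b = 1) → (∀ l e b, s l e b = 0 ∨ s l e b = 1) →
    (∃ e b, i 0 ∉ inc e ∧ i 1 ∉ inc e ∧ s 0 e b = 1 ∧ s 1 e b = 0) →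
    ∀ (t : ℤ), |t| ≤ Q → ¬ ∀ l, (d (i l) : ℤ) ∣ t - (T0 (a l) + TE inc d g (s l))

theorem card_le_one_of_lt {T : Finset ℕ} (h : ∀ x ∈ T, ∀ y ∈ T, ¬ y < x) : T.card ≤ 1 := by
  rw [Finset.card_le_one]
  intro x hx y hy
  have h1 := h x hx y hy
  have h2 := h y hy x hx
  omega

section
variable (inc : E → Finset (Fin k)) (M G R Q : ℕ) (d : Fin k → ℕ)
  (hp : ∀ i, (d i).Prime) (hGd : ∀ i, G < d i) (hd2 : ∀ i, 2 < d i) (hd : NoCoinc inc M G R Q d)

include hp hGd hd2 hd in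
theorem rare_g1 :
    Rare (Finset.Icc 1 G) (k * 5 ^ m * (5 ^ m) ^ Fintype.card E * 1) (fun γ : E × Fin m → ℕ =>
    ¬ ∀ (i : Fin k) (a : Fin m → ℤ) (s : E → Fin m → ℤ), (∀ b, |a b| ≤ 2) →
    (∀ e b, |s e b| ≤ 2) → (∃ e b, i ∉ inc e ∧ s e b ≠ 0) →
    ¬ (d i : ℤ) ∣ T0 a + TE inc d (fun e b => γ (e, b)) s) := by
  classical
  have key := Rare.exists_mem (S := Finset.Icc 1 G) (b := 1)
    ((Finset.univ : Finset (Fin k)) ×ˢ
      (Fintype.piFinset (fun _ : Fin m => Finset.Icc (-2:ℤ) 2)) ×ˢ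
      (Fintype.piFinset (fun _ : E => Fintype.piFinset (fun _ : Fin m => Finset.Icc (-2:ℤ) 2))))
    (P := fun c γ => (∃ e b, c.1 ∉ inc e ∧ c.2.2 e b ≠ 0) ∧
      (d c.1 : ℤ) ∣ T0 c.2.1 + TE inc d (fun e b => γ (e, b)) c.2.2) ?_
  · refine key.mono ?_ fun γ _ hγ => ?_
    · refine le_of_eq ?_
      rw [Finset.card_product, Finset.card_product, Finset.card_univ]
      simp only [Fintype.card_piFinset, Finset.prod_const, Finset.card_univ, Fintype.card_fin,
        Int.card_Icc]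
      rw [show ((2:ℤ) + 1 - -2).toNat = 5 from rfl]
      ring
    · push Not at hγ
      obtain ⟨i, a, s, ha, hs, hes, hdv⟩ := hγ
      refine ⟨(i, a, s), ?_, hes, hdv⟩
      simp only [Finset.mem_product, Finset.mem_univ, Fintype.mem_piFinset, Finset.mem_Icc,
        true_and]
      exact ⟨fun b => abs_le.1 (ha b), fun e b => abs_le.1 (hs e b)⟩
  · rintro ⟨i, a, s⟩ hc
    simp only [Finset.mem_product, Finset.mem_univ, Fintype.mem_piFinset, Finset.mem_Icc,
        true_and] at hc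
    refine Rare.and_prop ?_
    rintro ⟨e, b, hie, hse⟩
    simp only at hie hse
    refine Rare.line (e, b) fun γ _ T hT hbad => card_le_one_of_lt ?_
    intro x hx y hy hyx
    have h1 := dvd_sub (hbad x hx) (hbad y hy)
    rw [add_sub_add_left_eq_sub, TE_update_sub] at h1
    simp only at h1
    have hx' := Finset.mem_Icc.1 (hT hx)
    have hy' := Finset.mem_Icc.1 (hT hy)
    have hp' : Prime (d i : ℤ) := Nat.prime_iff_prime_int.1 (hp i)
    have hG' : (G : ℤ) < d i := by exact_mod_cast hGd i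
    have h2' : (2 : ℤ) < d i := by exact_mod_cast hd2 i
    rcases hp'.dvd_or_dvd h1 with h2 | h2
    · rcases hp'.dvd_or_dvd h2 with h3 | h3
      · have h4 := Int.le_of_dvd (abs_pos.2 hse) ((dvd_abs _ _).2 h3)
        have h5 := abs_le.2 (hc.2 e b)
        omega
      · have h4 := Int.le_of_dvd (by omega) h3
        omega
    · exact not_dvd_dd inc d hp hd.inj i e hie h2

include hd in
theorem rare_g2 :
    Rare (Finset.Icc 1 G) (k * k * (3 ^ m * (3 ^ m) ^ Fintype.card E) ^ 2 * 1)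
    (fun γ : E × Fin m → ℕ =>
    ¬ ∀ (i j : Fin k), i ≠ j →
    ∀ (a : Fin m → ℤ) (s : E → Fin m → ℤ) (a' : Fin m → ℤ) (s' : E → Fin m → ℤ),
    (∀ b, |a b| ≤ 1) → (∀ e b, |s e b| ≤ 1) → (∀ b, |a' b| ≤ 1) → (∀ e b, |s' e b| ≤ 1) →
    (∃ e b, i ∉ inc e ∧ s e b ≠ 0) → ∀ (h : ℤ), |h| ≤ R →
    (d i : ℤ) ∣ h - (T0 a + TE inc d (fun e b => γ (e, b)) s) →
    ¬ (d j : ℤ) ∣ h - (T0 a' + TE inc d (fun e b => γ (e, b)) s')) := by
  classical
  set W := (Fintype.piFinset (fun _ : Fin m => Finset.Icc (-1:ℤ) 1)) ×ˢ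
      (Fintype.piFinset (fun _ : E => Fintype.piFinset (fun _ : Fin m => Finset.Icc (-1:ℤ) 1)))
    with hW
  have key := Rare.exists_mem (S := Finset.Icc 1 G) (b := 1)
    ((Finset.univ : Finset (Fin k × Fin k)) ×ˢ W ×ˢ W)
    (P := fun c γ => (c.1.1 ≠ c.1.2 ∧ ∃ e b, c.1.1 ∉ inc e ∧ c.2.1.2 e b ≠ 0) ∧
      ∃ h : ℤ, |h| ≤ R ∧
      (d c.1.1 : ℤ) ∣ h - (T0 c.2.1.1 + TE inc d (fun e b => γ (e, b)) c.2.1.2) ∧
      (d c.1.2 : ℤ) ∣ h - (T0 c.2.2.1 + TE inc d (fun e b => γ (e, b)) c.2.2.2)) ?_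
  · refine key.mono ?_ fun γ _ hγ => ?_
    · refine le_of_eq ?_
      rw [Finset.card_product, Finset.card_product, hW, Finset.card_product, Finset.card_univ]
      simp only [Fintype.card_piFinset, Finset.prod_const, Finset.card_univ, Fintype.card_fin,
        Fintype.card_prod, Int.card_Icc]
      rw [show ((1:ℤ) + 1 - -1).toNat = 3 from rfl]
      ring
    · push Not at hγ
      obtain ⟨i, j, hij, a, s, a', s', ha, hs, ha', hs', hes, h, hh, e1, e2⟩ := hγ
      refine ⟨((i, j), (a, s), (a', s')), ?_, ⟨hij, hes⟩, h, hh, e1, e2⟩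
      simp only [hW, Finset.mem_product, Finset.mem_univ, Fintype.mem_piFinset, Finset.mem_Icc,
        true_and]
      exact ⟨⟨fun b => abs_le.1 (ha b), fun e b => abs_le.1 (hs e b)⟩,
        fun b => abs_le.1 (ha' b), fun e b => abs_le.1 (hs' e b)⟩
  · rintro ⟨⟨i, j⟩, ⟨a, s⟩, ⟨a', s'⟩⟩ hc
    simp only [hW, Finset.mem_product, Finset.mem_univ, Fintype.mem_piFinset, Finset.mem_Icc,
        true_and] at hc
    refine Rare.and_prop ?_
    rintro ⟨hij, e, b, hie, hse⟩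
    simp only at hij hie hse
    refine Rare.line (e, b) fun γ _ T hT hbad => card_le_one_of_lt ?_
    intro x hx y hy hyx
    obtain ⟨t, ht, x1, x2⟩ := hbad x hx
    obtain ⟨t', ht', y1, y2⟩ := hbad y hy
    have hx' := Finset.mem_Icc.1 (hT hx)
    have hy' := Finset.mem_Icc.1 (hT hy)
    have hq : ((x - y : ℕ) : ℤ) = (x : ℤ) - y := by push_cast [hyx.le]; ring
    refine hd.c1 i j hij e hie (x - y) (by omega) (by omega) (s e b) (s' e b)
      (abs_le.2 (hc.1.2 e b)) hse (abs_le.2 (hc.2.2 e b)) (t - t') ?_ ?_ ?_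
    · have := abs_sub t t'
      linarith
    · have h1 := dvd_sub x1 y1
      have h2 := TE_update_sub inc d γ (e, b) x y s
      simp only at h2
      rw [hq, show t - t' - ((x:ℤ) - y) * s e b * dd inc d e
        = t - t' - s e b * ((x:ℤ) - y) * dd inc d e by ring, ← h2]
      rw [show ∀ u v w : ℤ, (t - (w + u)) - (t' - (w + v)) = t - t' - (u - v) from
        fun u v w => by ring] at h1
      exact h1
    · have h1 := dvd_sub x2 y2
      have h2 := TE_update_sub inc d γ (e, b) x y s'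
      simp only at h2
      rw [hq, show t - t' - ((x:ℤ) - y) * s' e b * dd inc d e
        = t - t' - s' e b * ((x:ℤ) - y) * dd inc d e by ring, ← h2]
      rw [show ∀ u v w : ℤ, (t - (w + u)) - (t' - (w + v)) = t - t' - (u - v) from
        fun u v w => by ring] at h1
      exact h1

include hd in
theorem rare_g3 :
    Rare (Finset.Icc 1 G) (k * k * k * (2 ^ m * (2 ^ m) ^ Fintype.card E) ^ 3 * 1)
    (fun γ : E × Fin m → ℕ =>
    ¬ ∀ (i : Fin 3 → Fin k), Function.Injective i →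
    ∀ (a : Fin 3 → Fin m → ℤ) (s : Fin 3 → E → Fin m → ℤ),
    (∀ l b, a l b = 0 ∨ a l b = 1) → (∀ l e b, s l e b = 0 ∨ s l e b = 1) →
    (∃ e b, i 0 ∉ inc e ∧ i 1 ∉ inc e ∧ s 0 e b = 1 ∧ s 1 e b = 0) →
    ∀ (t : ℤ), |t| ≤ Q →
      ¬ ∀ l, (d (i l) : ℤ) ∣ t - (T0 (a l) + TE inc d (fun e b => γ (e, b)) (s l))) := by
  classical
  set W := (Fintype.piFinset (fun _ : Fin m => ({0, 1} : Finset ℤ))) ×ˢ
      (Fintype.piFinset (fun _ : E => Fintype.piFinset (fun _ : Fin m => ({0, 1} : Finset ℤ))))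
    with hW
  have key := Rare.exists_mem (S := Finset.Icc 1 G) (b := 1)
    ((Finset.univ : Finset (Fin 3 → Fin k)) ×ˢ Fintype.piFinset (fun _ : Fin 3 => W))
    (P := fun c γ => (Function.Injective c.1 ∧ ∃ e b, c.1 0 ∉ inc e ∧ c.1 1 ∉ inc e ∧
        (c.2 0).2 e b = 1 ∧ (c.2 1).2 e b = 0) ∧
      ∃ t : ℤ, |t| ≤ Q ∧ ∀ l,
      (d (c.1 l) : ℤ) ∣ t - (T0 (c.2 l).1 + TE inc d (fun e b => γ (e, b)) (c.2 l).2)) ?_
  · refine key.mono ?_ fun γ _ hγ => ?_
    · refine le_of_eq ?_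
      rw [Finset.card_product, hW, Finset.card_univ, Fintype.card_piFinset]
      simp only [Fintype.card_piFinset, Finset.prod_const, Finset.card_univ, Fintype.card_fin,
        Finset.card_product, Fintype.card_fun, Finset.card_pair (zero_ne_one : (0:ℤ) ≠ 1)]
      ring
    · push Not at hγ
      obtain ⟨i, hi, a, s, ha, hs, hes, t, ht, e⟩ := hγ
      refine ⟨(i, fun l => (a l, s l)), ?_, ⟨hi, hes⟩, t, ht, e⟩
      simp only [hW, Finset.mem_product, Finset.mem_univ, Fintype.mem_piFinset,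
        Finset.mem_insert, Finset.mem_singleton, true_and]
      exact fun l => ⟨ha l, hs l⟩
  · rintro ⟨i, w⟩ hc
    simp only [hW, Finset.mem_product, Finset.mem_univ, Fintype.mem_piFinset,
        Finset.mem_insert, Finset.mem_singleton, true_and] at hc
    refine Rare.and_prop ?_
    rintro ⟨hi, e, b, h0, h1, hs0, hs1⟩
    simp only at hi h0 h1 hs0 hs1
    refine Rare.line (e, b) fun γ _ T hT hbad => card_le_one_of_lt ?_
    intro x hx y hy hyx
    obtain ⟨t, ht, x1⟩ := hbad x hx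
    obtain ⟨t', ht', y1⟩ := hbad y hy
    have hx' := Finset.mem_Icc.1 (hT hx)
    have hy' := Finset.mem_Icc.1 (hT hy)
    have hq : ((x - y : ℕ) : ℤ) = (x : ℤ) - y := by push_cast [hyx.le]; ring
    have hl : ∀ l, (d (i l) : ℤ) ∣ t - t' - (w l).2 e b * ((x:ℤ) - y) * dd inc d e := by
      intro l
      have h1 := dvd_sub (x1 l) (y1 l)
      have h2 := TE_update_sub inc d γ (e, b) x y (w l).2
      simp only at h2
      rw [← h2]
      rw [show ∀ u v w : ℤ, (t - (w + u)) - (t' - (w + v)) = t - t' - (u - v) from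
        fun u v w => by ring] at h1
      exact h1
    refine hd.c3 i hi e h0 h1 (x - y) (by omega) (by omega) ((w 2).2 e b) ((hc 2).2 e b)
      (t - t') ?_ ?_ ?_ ?_
    · have := abs_sub t t'
      linarith
    · have h3 := hl 0
      rw [hs0, one_mul] at h3
      rw [hq]; exact h3
    · have h3 := hl 1
      rw [hs1] at h3
      simpa using h3
    · have h3 := hl 2
      rw [hq, mul_comm ((x:ℤ) - y)]
      exact h3

include hp hGd hd2 hd in
/-- Existence of good multipliers. -/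
theorem exists_goodMult
    (hcard : k * 5 ^ m * (5 ^ m) ^ Fintype.card E * 1
      + k * k * (3 ^ m * (3 ^ m) ^ Fintype.card E) ^ 2 * 1
      + k * k * k * (2 ^ m * (2 ^ m) ^ Fintype.card E) ^ 3 * 1 < G) :
    ∃ g : E → Fin m → ℕ, (∀ e b, 1 ≤ g e b ∧ g e b ≤ G) ∧ GoodMult inc m R Q d g := by
  classical
  have h1 := rare_g1 (m := m) inc M G R Q d hp hGd hd2 hd
  have h2 := rare_g2 (m := m) inc M G R Q d hd
  have h3 := rare_g3 (m := m) inc M G R Q d hd
  obtain ⟨γ, hγ, hn⟩ := ((h1.or h2).or h3).exists_not (by rw [Nat.card_Icc]; omega)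
  refine ⟨fun e b => γ (e, b), fun e b => Finset.mem_Icc.1 (hγ (e, b)), ?_, ?_, ?_⟩
  · by_contra hcon
    exact hn (Or.inl (Or.inl hcon))
  · by_contra hcon
    exact hn (Or.inl (Or.inr hcon))
  · by_contra hcon
    exact hn (Or.inr hcon)

end

end Vale.Agent.P321.H328
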