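import Vale.Agent.P321.H328.GenT
import Vale.Agent.P321.H535.Glue

/-! `GenOK` of the assembly. -/

namespace Vale.Agent.P321.H328

theorem genOK : LB2.GenOK genCond G0 :=
  fun k m P X hk hm h => exists_Gen k m P X hk hm h

end Vale.Agent.P321.H328
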