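import Vale.Agent.P321.H328.GenRare

/-! Existence of periods without coincidences. -/

namespace Vale.Agent.P321.H328

open Finset

variable {k : ℕ} {E : Type*} [Fintype E]

/-- The conditions on the periods. -/
structure NoCoinc (inc : E → Finset (Fin k)) (M G R Q : ℕ) (d : Fin k → ℕ) : Prop where
  inj : Function.Injective d
  c1 : ∀ i j, i ≠ j → ∀ e, i ∉ inc e → ∀ q : ℕ, 1 ≤ q → q ≤ G → ∀ u v : ℤ, |u| ≤ 1 → u ≠ 0 →
    |v| ≤ 1 → ∀ h : ℤ, |h| ≤ 2 * R → (d i : ℤ) ∣ h - q * u * dd inc d e →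
    ¬ (d j : ℤ) ∣ h - q * v * dd inc d e
  c2 : ∀ i j, i ≠ j → ∀ a b : ℤ, |a| ≤ M → |b| ≤ M → a ≠ b → ∀ h : ℤ, |h| ≤ R →
    (d i : ℤ) ∣ h - a → ¬ (d j : ℤ) ∣ h - b
  c3 : ∀ i : Fin 3 → Fin k, Function.Injective i → ∀ e, i 0 ∉ inc e → i 1 ∉ inc e →
    ∀ q : ℕ, 1 ≤ q → q ≤ G → ∀ v : ℤ, (v = 0 ∨ v = 1) → ∀ h : ℤ, |h| ≤ 2 * Q →
    (d (i 0) : ℤ) ∣ h - q * dd inc d e → (d (i 1) : ℤ) ∣ h →
    ¬ (d (i 2) : ℤ) ∣ h - q * v * dd inc d e
  c4 : ∀ i : Fin 3 → Fin k, Function.Injective i → ∀ a : Fin 3 → ℤ, (∀ l, |a l| ≤ M) →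
    a 0 ≠ a 1 → ∀ h : ℤ, |h| ≤ 2 * Q → ¬ ∀ l, (d (i l) : ℤ) ∣ h - a l

theorem rare_c0 (S : Finset ℕ) :
    Rare S (k * k) (fun d : Fin k → ℕ => ¬ Function.Injective d) := by
  classical
  have h := Rare.exists_mem (S := S) (b := 1) (Finset.univ : Finset (Fin k × Fin k))
    (P := fun c d => c.1 ≠ c.2 ∧ d c.1 = d c.2)
    (fun c _ => Rare.and_prop fun hc => rare_eq S c.1 c.2 hc)
  refine h.mono (by simp) fun d _ hd => ?_
  rw [Function.Injective] at hd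
  push Not at hd
  obtain ⟨i, j, h1, h2⟩ := hd
  exact ⟨(i, j), Finset.mem_univ _, h2, h1⟩

section
variable (inc : E → Finset (Fin k)) (hinc : ∀ e, (inc e).card = 2)
  (S : Finset ℕ) (L U M G R Q : ℕ) (hL : 1 ≤ L)
  (hS : ∀ x ∈ S, x.Prime ∧ L < x ∧ x ≤ U)

include hinc hL hS

theorem rare_c1 (hR : 2 * R ≤ L ^ 2) (hsz : 2 * R + G * U ^ 2 < L ^ 5) :
    Rare S (k * k * Fintype.card E * G * 9 * (4 * (2 * (2 * R) / L + 1)))
    (fun d : Fin k → ℕ => ¬ (∀ i j, i ≠ j → ∀ e, i ∉ inc e → ∀ q : ℕ, 1 ≤ q → q ≤ G →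
      ∀ u v : ℤ, |u| ≤ 1 → u ≠ 0 →
      |v| ≤ 1 → ∀ h : ℤ, |h| ≤ 2 * R → (d i : ℤ) ∣ h - q * u * dd inc d e →
      ¬ (d j : ℤ) ∣ h - q * v * dd inc d e)) := by
  classical
  have hS' : ∀ x ∈ S, x.Prime ∧ L < x := fun x hx => ⟨(hS x hx).1, (hS x hx).2.1⟩
  have key := Rare.exists_mem (S := S) (b := 4 * (2 * (2 * R) / L + 1))
    ((Finset.univ : Finset (Fin k × Fin k × E)) ×ˢ (Finset.Icc 1 G) ×ˢ
      (Finset.Icc (-1:ℤ) 1) ×ˢ (Finset.Icc (-1:ℤ) 1))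
    (P := fun c d => (c.1.1 ≠ c.1.2.1 ∧ c.1.1 ∉ inc c.1.2.2 ∧ c.2.2.1 ≠ 0) ∧
      ∃ h : ℤ, |h| ≤ (2 * R : ℕ) ∧ (d c.1.1 : ℤ) ∣ h - c.2.1 * c.2.2.1 * dd inc d c.1.2.2 ∧
        (d c.1.2.1 : ℤ) ∣ h - c.2.1 * c.2.2.2 * dd inc d c.1.2.2) ?_
  · refine key.mono ?_ fun d _ hd => ?_
    · refine le_of_eq ?_
      rw [Finset.card_product, Finset.card_product, Finset.card_product, Finset.card_univ,
        Fintype.card_prod, Fintype.card_prod, Fintype.card_fin, Nat.card_Icc, Int.card_Icc]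
      simp
      ring
    · push Not at hd
      obtain ⟨i, j, hij, e, he, q, hq1, hqG, u, v, hu, hu0, hv, h, hh, e1, e2⟩ := hd
      refine ⟨((i, j, e), q, u, v), ?_, ⟨hij, he, hu0⟩, h, by push_cast; exact hh, e1, e2⟩
      simp only [Finset.mem_product, Finset.mem_univ, Finset.mem_Icc, true_and]
      exact ⟨⟨hq1, hqG⟩, abs_le.1 hu, abs_le.1 hv⟩
  · rintro ⟨⟨i, j, e⟩, q, u, v⟩ hc
    simp only [Finset.mem_product, Finset.mem_univ, Finset.mem_Icc, true_and] at hc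
    obtain ⟨⟨hq1, hqG⟩, ⟨hu1, hu2⟩, hv1, hv2⟩ := hc
    refine Rare.and_prop fun ⟨hij, hie, hu0⟩ => ?_
    simp only at hij hie hu0
    refine rare_two S L hL hS' i j hij (2 * R) (fun d => q * u * dd inc d e)
      (fun d => q * v * dd inc d e) ?_ ?_ ?_ ?_
    · intro d x; simp only [dd_update inc d i x e hie]
    · intro d x; simp only [dd_update inc d i x e hie]
    · intro d hd h hh
      have hle := dd_le inc hinc d U (fun i => (hS _ (hd i)).2.2) e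
      have h0 := dd_nonneg inc d e
      have hcst : |(q:ℤ) * u * dd inc d e| ≤ (G:ℤ) * (U:ℤ) ^ 2 := by
        rw [abs_mul, abs_mul, abs_of_nonneg h0, abs_of_nonneg (by positivity : (0:ℤ) ≤ q)]
        have hu' : |u| ≤ 1 := abs_le.2 ⟨hu1, hu2⟩
        have hqG' : (q:ℤ) ≤ G := by exact_mod_cast hqG
        calc (q:ℤ) * |u| * dd inc d e ≤ (q:ℤ) * 1 * dd inc d e := by gcongr
          _ ≤ (G:ℤ) * 1 * (U:ℤ) ^ 2 := by gcongr
          _ = _ := by ring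
      have h3 := abs_sub h ((q:ℤ) * u * dd inc d e)
      have h4 : ((2 * R + G * U ^ 2 : ℕ) : ℤ) < ((L ^ 5 : ℕ) : ℤ) := by exact_mod_cast hsz
      push_cast at h4 hh ⊢
      linarith
    · intro d hd h hh _ heq
      have hlt := lt_dd inc hinc d L (fun i => (hS _ (hd i)).2.1) e
      have h1 : (dd inc d e) ≤ |(q:ℤ) * u * dd inc d e| := by
        rw [abs_mul, abs_mul, abs_of_nonneg (dd_nonneg inc d e),
          abs_of_nonneg (by positivity : (0:ℤ) ≤ q)]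
        have hu' : 1 ≤ |u| := Int.one_le_abs hu0
        have hq' : (1:ℤ) ≤ q := by exact_mod_cast hq1
        have : (1:ℤ) ≤ q * |u| := by nlinarith
        nlinarith [dd_nonneg inc d e]
      rw [heq] at hh
      have h4 : ((2 * R : ℕ) : ℤ) ≤ ((L ^ 2 : ℕ) : ℤ) := by exact_mod_cast hR
      push_cast at h4 hh
      linarith

omit hinc in
theorem rare_c2 (hM : 2 * M ≤ L) (hsz : R + M < L ^ 5) :
    Rare S (k * k * (2 * M + 1) ^ 2 * (4 * (2 * R / L + 1)))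
    (fun d : Fin k → ℕ => ¬ (∀ i j, i ≠ j → ∀ a b : ℤ, |a| ≤ M → |b| ≤ M → a ≠ b →
      ∀ h : ℤ, |h| ≤ R → (d i : ℤ) ∣ h - a → ¬ (d j : ℤ) ∣ h - b)) := by
  classical
  have hS' : ∀ x ∈ S, x.Prime ∧ L < x := fun x hx => ⟨(hS x hx).1, (hS x hx).2.1⟩
  have key := Rare.exists_mem (S := S) (b := 4 * (2 * R / L + 1))
    ((Finset.univ : Finset (Fin k × Fin k)) ×ˢ
      (Finset.Icc (-M:ℤ) M) ×ˢ (Finset.Icc (-M:ℤ) M))
    (P := fun c d => (c.1.1 ≠ c.1.2 ∧ c.2.1 ≠ c.2.2) ∧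
      ∃ h : ℤ, |h| ≤ R ∧ (d c.1.1 : ℤ) ∣ h - c.2.1 ∧ (d c.1.2 : ℤ) ∣ h - c.2.2) ?_
  · refine key.mono ?_ fun d _ hd => ?_
    · refine le_of_eq ?_
      rw [Finset.card_product, Finset.card_product, Finset.card_univ,
        Fintype.card_prod, Fintype.card_fin, Int.card_Icc]
      have : ((M:ℤ) + 1 - (-M)).toNat = 2 * M + 1 := by omega
      rw [this]
      ring
    · push Not at hd
      obtain ⟨i, j, hij, a, b, ha, hb, hab, h, hh, e1, e2⟩ := hd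
      refine ⟨((i, j), a, b), ?_, ⟨hij, hab⟩, h, hh, e1, e2⟩
      simp only [Finset.mem_product, Finset.mem_univ, Finset.mem_Icc, true_and]
      exact ⟨abs_le.1 ha, abs_le.1 hb⟩
  · rintro ⟨⟨i, j⟩, a, b⟩ hc
    simp only [Finset.mem_product, Finset.mem_univ, Finset.mem_Icc, true_and] at hc
    obtain ⟨⟨ha1, ha2⟩, hb1, hb2⟩ := hc
    refine Rare.and_prop fun ⟨hij, hab⟩ => ?_
    simp only at hij hab
    have hM' : (2 * M : ℤ) ≤ L := by exact_mod_cast hM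
    have h4 : ((R + M : ℕ) : ℤ) < ((L ^ 5 : ℕ) : ℤ) := by exact_mod_cast hsz
    push_cast at h4
    refine rare_two S L hL hS' i j hij R (fun _ => a) (fun _ => b) (fun _ _ => rfl)
      (fun _ _ => rfl) ?_ ?_
    · intro d hd h hh
      have h3 := abs_sub h a
      have ha : |a| ≤ M := abs_le.2 ⟨ha1, ha2⟩
      linarith
    · intro d hd h hh hdvd heq
      rw [heq] at hdvd
      have h1 : (d j : ℤ) ≤ |a - b| :=
        Int.le_of_dvd (abs_pos.2 (sub_ne_zero.2 hab)) ((dvd_abs _ _).2 hdvd)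
      have h2 : (L : ℤ) < d j := by exact_mod_cast (hS _ (hd j)).2.1
      have h3 : |a - b| ≤ 2 * M := abs_le.2 ⟨by linarith, by linarith⟩
      linarith

theorem rare_c3 (hG : G ≤ L) (hsz : 2 * Q + G * U ^ 2 < L ^ 5) :
    Rare S (k * k * k * Fintype.card E * G * 2 * (4 * (2 * (2 * Q) / L ^ 2 + 1)))
    (fun d : Fin k → ℕ => Function.Injective d ∧ ¬ (∀ i : Fin 3 → Fin k, Function.Injective i →
      ∀ e, i 0 ∉ inc e → i 1 ∉ inc e →
      ∀ q : ℕ, 1 ≤ q → q ≤ G → ∀ v : ℤ, (v = 0 ∨ v = 1) → ∀ h : ℤ, |h| ≤ 2 * Q →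
      (d (i 0) : ℤ) ∣ h - q * dd inc d e → (d (i 1) : ℤ) ∣ h →
      ¬ (d (i 2) : ℤ) ∣ h - q * v * dd inc d e)) := by
  classical
  have hS' : ∀ x ∈ S, x.Prime ∧ L < x := fun x hx => ⟨(hS x hx).1, (hS x hx).2.1⟩
  have key := Rare.exists_mem (S := S) (b := 4 * (2 * (2 * Q) / L ^ 2 + 1))
    ((Finset.univ : Finset ((Fin 3 → Fin k) × E)) ×ˢ (Finset.Icc 1 G) ×ˢ
      (({0, 1} : Finset ℤ)))
    (P := fun c d => (Function.Injective c.1.1 ∧ c.1.1 0 ∉ inc c.1.2 ∧ c.1.1 1 ∉ inc c.1.2) ∧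
      (Function.Injective d ∧ ∃ h : ℤ, |h| ≤ (2 * Q : ℕ) ∧
        ∀ l, (d (c.1.1 l) : ℤ) ∣ h - (![(c.2.1:ℤ), 0, c.2.1 * c.2.2] l) * dd inc d c.1.2)) ?_
  · refine key.mono ?_ fun d _ hd => ?_
    · refine le_of_eq ?_
      rw [Finset.card_product, Finset.card_product, Finset.card_univ,
        Fintype.card_prod, Fintype.card_fun, Fintype.card_fin, Fintype.card_fin, Nat.card_Icc]
      simp
      ring
    · obtain ⟨hinj, hd⟩ := hd
      push Not at hd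
      obtain ⟨i, hi, e, he0, he1, q, hq1, hqG, v, hv, h, hh, e0, e1, e2⟩ := hd
      refine ⟨((i, e), q, v), ?_, ⟨hi, he0, he1⟩, hinj, h, by push_cast; exact hh, ?_⟩
      · simp only [Finset.mem_product, Finset.mem_univ, Finset.mem_Icc, true_and,
          Finset.mem_insert, Finset.mem_singleton]
        exact ⟨⟨hq1, hqG⟩, hv⟩
      · intro l
        fin_cases l
        · simpa using e0
        · simpa using e1
        · simpa using e2
  · rintro ⟨⟨i, e⟩, q, v⟩ hc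
    simp only [Finset.mem_product, Finset.mem_univ, Finset.mem_Icc, true_and,
          Finset.mem_insert, Finset.mem_singleton] at hc
    obtain ⟨⟨hq1, hqG⟩, hv⟩ := hc
    refine Rare.and_prop fun ⟨hi, h0, h1⟩ => ?_
    simp only at hi h0 h1
    refine rare_three S L hL hS' i hi (2 * Q)
      (fun l d => (![(q:ℤ), 0, q * v] l) * dd inc d e) ?_ ?_ ?_
    · intro l d x; simp only [dd_update inc d (i 0) x e h0]
    · intro d hd h hh
      have hle := dd_le inc hinc d U (fun i => (hS _ (hd i)).2.2) e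
      have h0 := dd_nonneg inc d e
      have hqG' : (q:ℤ) ≤ G := by exact_mod_cast hqG
      have hcst : |(q:ℤ) * dd inc d e| ≤ (G:ℤ) * (U:ℤ) ^ 2 := by
        rw [abs_mul, abs_of_nonneg h0, abs_of_nonneg (by positivity : (0:ℤ) ≤ q)]
        gcongr
      have h3 := abs_sub h ((q:ℤ) * dd inc d e)
      have h4 : ((2 * Q + G * U ^ 2 : ℕ) : ℤ) < ((L ^ 5 : ℕ) : ℤ) := by exact_mod_cast hsz
      push_cast at h4 hh
      simp only [Matrix.cons_val_zero]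
      linarith
    · intro d hd hinj h hh hdvd heq
      simp only [Matrix.cons_val_zero, Matrix.cons_val_one, zero_mul, sub_zero] at hdvd heq
      rw [heq] at hdvd
      have hp' : Prime (d (i 1) : ℤ) := Nat.prime_iff_prime_int.1 (hS _ (hd _)).1
      rcases hp'.dvd_or_dvd hdvd with h2 | h2
      · have h3 : d (i 1) ≤ q := Nat.le_of_dvd (by omega) (by exact_mod_cast h2)
        have h4 := (hS _ (hd (i 1))).2.1
        omega
      · exact not_dvd_dd inc d (fun i => (hS _ (hd i)).1) hinj (i 1) e h1 h2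

omit hinc in
theorem rare_c4 (hM : 2 * M ≤ L) (hsz : 2 * Q + M < L ^ 5) :
    Rare S (k * k * k * (2 * M + 1) ^ 3 * (4 * (2 * (2 * Q) / L ^ 2 + 1)))
    (fun d : Fin k → ℕ => Function.Injective d ∧ ¬ (∀ i : Fin 3 → Fin k, Function.Injective i →
      ∀ a : Fin 3 → ℤ, (∀ l, |a l| ≤ M) →
      a 0 ≠ a 1 → ∀ h : ℤ, |h| ≤ 2 * Q → ¬ ∀ l, (d (i l) : ℤ) ∣ h - a l)) := by
  classical
  have hS' : ∀ x ∈ S, x.Prime ∧ L < x := fun x hx => ⟨(hS x hx).1, (hS x hx).2.1⟩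
  have key := Rare.exists_mem (S := S) (b := 4 * (2 * (2 * Q) / L ^ 2 + 1))
    ((Finset.univ : Finset (Fin 3 → Fin k)) ×ˢ
      (Fintype.piFinset (fun _ : Fin 3 => Finset.Icc (-M:ℤ) M)))
    (P := fun c d => (Function.Injective c.1 ∧ c.2 0 ≠ c.2 1) ∧
      (Function.Injective d ∧ ∃ h : ℤ, |h| ≤ (2 * Q : ℕ) ∧
        ∀ l, (d (c.1 l) : ℤ) ∣ h - c.2 l)) ?_
  · refine key.mono ?_ fun d _ hd => ?_
    · refine le_of_eq ?_
      rw [Finset.card_product, Finset.card_univ, Fintype.card_piFinset_const,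
        Fintype.card_fun, Fintype.card_fin, Fintype.card_fin, Int.card_Icc]
      have : ((M:ℤ) + 1 - (-M)).toNat = 2 * M + 1 := by omega
      rw [this]
      ring
    · obtain ⟨hinj, hd⟩ := hd
      push Not at hd
      obtain ⟨i, hi, a, ha, ha01, h, hh, e⟩ := hd
      refine ⟨(i, a), ?_, ⟨hi, ha01⟩, hinj, h, by push_cast; exact hh, e⟩
      simp only [Finset.mem_product, Finset.mem_univ, Fintype.mem_piFinset, Finset.mem_Icc,
        true_and]
      exact fun l => abs_le.1 (ha l)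
  · rintro ⟨i, a⟩ hc
    simp only [Finset.mem_product, Finset.mem_univ, Fintype.mem_piFinset, Finset.mem_Icc,
        true_and] at hc
    refine Rare.and_prop fun ⟨hi, ha01⟩ => ?_
    simp only at hi ha01
    have hM' : (2 * M : ℤ) ≤ L := by exact_mod_cast hM
    have h4 : ((2 * Q + M : ℕ) : ℤ) < ((L ^ 5 : ℕ) : ℤ) := by exact_mod_cast hsz
    push_cast at h4
    refine rare_three S L hL hS' i hi (2 * Q) (fun l _ => a l) (fun _ _ _ => rfl) ?_ ?_
    · intro d hd h hh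
      have h3 := abs_sub h (a 0)
      have ha : |a 0| ≤ M := abs_le.2 (hc 0)
      push_cast at hh
      linarith
    · intro d hd _ h hh hdvd heq
      rw [heq] at hdvd
      have h1 : (d (i 1) : ℤ) ≤ |a 0 - a 1| :=
        Int.le_of_dvd (abs_pos.2 (sub_ne_zero.2 ha01)) ((dvd_abs _ _).2 hdvd)
      have h2 : (L : ℤ) < d (i 1) := by exact_mod_cast (hS _ (hd (i 1))).2.1
      have h3 : |a 0 - a 1| ≤ 2 * M := by
        have h5 := hc 0
        have h6 := hc 1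
        exact abs_le.2 ⟨by linarith [h5.1, h6.2], by linarith [h5.2, h6.1]⟩
      linarith

/-- Existence of periods without coincidences, from the count of candidates. -/
theorem exists_noCoinc (hG : G ≤ L) (hM : 2 * M ≤ L) (hR : 2 * R ≤ L ^ 2)
    (hRs : 2 * R + G * U ^ 2 < L ^ 5) (hQs : 2 * Q + G * U ^ 2 < L ^ 5) (hG1 : M ≤ G * U ^ 2)
    (hcard : k * k + k * k * Fintype.card E * G * 9 * (4 * (2 * (2 * R) / L + 1))
      + k * k * (2 * M + 1) ^ 2 * (4 * (2 * R / L + 1))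
      + k * k * k * Fintype.card E * G * 2 * (4 * (2 * (2 * Q) / L ^ 2 + 1))
      + k * k * k * (2 * M + 1) ^ 3 * (4 * (2 * (2 * Q) / L ^ 2 + 1)) < S.card) :
    ∃ d : Fin k → ℕ, (∀ j, d j ∈ S) ∧ NoCoinc inc M G R Q d := by
  classical
  have h0 := rare_c0 (k := k) S
  have h1 := rare_c1 inc hinc S L U G R hL hS hR hRs
  have h2 := rare_c2 (k := k) S L U M R hL hS hM (by omega)
  have h3 := rare_c3 inc hinc S L U G Q hL hS hG hQs
  have h4 := rare_c4 (k := k) S L U M Q hL hS hM (by omega)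
  obtain ⟨d, hd, hnd⟩ := ((((h0.or h1).or h2).or h3).or h4).exists_not hcard
  push Not at hnd
  obtain ⟨⟨⟨⟨k0, k1⟩, k2⟩, k3⟩, k4⟩ := hnd
  refine ⟨d, hd, k0, k1, k2, k3 k0, fun i hi a ha h01 h hh hall => ?_⟩
  obtain ⟨l, hl⟩ := k4 k0 i hi a ha h01 h hh
  exact hl (hall l)

end

end Vale.Agent.P321.H328
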