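import Vale.Agent.P321.H328.Avg
import Vale.Agent.P321.H328.GenDefs

/-! Rarity of the coincidences between periods. -/

namespace Vale.Agent.P321.H328

open Finset

variable {k : ℕ}

/-- Two-train coincidences are rare. -/
theorem rare_two (S : Finset ℕ) (L : ℕ) (hL : 1 ≤ L) (hS : ∀ x ∈ S, x.Prime ∧ L < x)
    (i j : Fin k) (hij : i ≠ j) (H : ℕ) (c₁ c₂ : (Fin k → ℕ) → ℤ)
    (h₁ : ∀ d x, c₁ (Function.update d i x) = c₁ d) (h₂ : ∀ d x, c₂ (Function.update d i x) = c₂ d)
    (hsz : ∀ d : Fin k → ℕ, (∀ j, d j ∈ S) → ∀ h : ℤ, |h| ≤ H → |h - c₁ d| < (L : ℤ) ^ 5)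
    (hne : ∀ d : Fin k → ℕ, (∀ j, d j ∈ S) → ∀ h : ℤ, |h| ≤ H → (d j : ℤ) ∣ h - c₂ d → h ≠ c₁ d) :
    Rare S (4 * (2 * H / L + 1)) (fun d : Fin k → ℕ =>
      ∃ h : ℤ, |h| ≤ H ∧ (d i : ℤ) ∣ h - c₁ d ∧ (d j : ℤ) ∣ h - c₂ d) := by
  classical
  refine Rare.line i fun d hd T hT hbad => ?_
  set A : Finset ℤ := (Finset.Icc (-(H:ℤ)) H).filter (fun h => (d j : ℤ) ∣ h - c₂ d) with hA
  have hjL : L < d j := (hS _ (hd j)).2
  have hAc : A.card ≤ 2 * H / L + 1 := by
    refine (card_le_of_dvd_sub A H (d j) (by omega) ?_ ?_).trans ?_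
    · intro h hh
      have := Finset.mem_Icc.1 (Finset.mem_filter.1 hh).1
      exact abs_le.2 this
    · intro h hh h' hh'
      have e1 := (Finset.mem_filter.1 hh).2
      have e2 := (Finset.mem_filter.1 hh').2
      have := dvd_sub e1 e2
      rwa [sub_sub_sub_cancel_right] at this
    · exact Nat.add_le_add_right (Nat.div_le_div_left hjL.le (by omega)) 1
  refine (card_primes_le T L hL (fun x hx => hS x (hT hx)) A (c₁ d) ?_ ?_).trans
    (Nat.mul_le_mul_left _ hAc)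
  · intro h hh
    have := Finset.mem_Icc.1 (Finset.mem_filter.1 hh).1
    exact hsz d hd h (abs_le.2 this)
  · intro x hx
    obtain ⟨h, hh, e1, e2⟩ := hbad x hx
    rw [Function.update_self, h₁] at e1
    rw [Function.update_of_ne hij.symm, h₂] at e2
    refine ⟨h, Finset.mem_filter.2 ⟨Finset.mem_Icc.2 (abs_le.1 hh), e2⟩, ?_, e1⟩
    exact hne d hd h hh e2

/-- Three-train coincidences are rare. -/
theorem rare_three (S : Finset ℕ) (L : ℕ) (hL : 1 ≤ L) (hS : ∀ x ∈ S, x.Prime ∧ L < x)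
    (i : Fin 3 → Fin k) (hi : Function.Injective i) (H : ℕ) (c : Fin 3 → (Fin k → ℕ) → ℤ)
    (hc : ∀ l d x, c l (Function.update d (i 0) x) = c l d)
    (hsz : ∀ d : Fin k → ℕ, (∀ j, d j ∈ S) → ∀ h : ℤ, |h| ≤ H → |h - c 0 d| < (L : ℤ) ^ 5)
    (hne : ∀ d : Fin k → ℕ, (∀ j, d j ∈ S) → Function.Injective d → ∀ h : ℤ, |h| ≤ H →
      (d (i 1) : ℤ) ∣ h - c 1 d → h ≠ c 0 d) :
    Rare S (4 * (2 * H / L ^ 2 + 1)) (fun d : Fin k → ℕ => Function.Injective d ∧
      ∃ h : ℤ, |h| ≤ H ∧ ∀ l, (d (i l) : ℤ) ∣ h - c l d) := by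
  classical
  have h01 : i 1 ≠ i 0 := fun h => by simpa using hi h
  have h02 : i 2 ≠ i 0 := fun h => by simpa using hi h
  have h12 : i 1 ≠ i 2 := fun h => by simpa using hi h
  refine Rare.line (i 0) fun d hd T hT hbad => ?_
  rcases T.eq_empty_or_nonempty with rfl | ⟨x₀, hx₀⟩
  · simp
  have hd12 : d (i 1) ≠ d (i 2) := by
    have h := (hbad x₀ hx₀).1
    intro h'
    apply h12
    apply h
    rw [Function.update_of_ne h01, Function.update_of_ne h02, h']
  have hcop : IsCoprime (d (i 1) : ℤ) (d (i 2) : ℤ) := by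
    rw [Nat.isCoprime_iff_coprime]
    exact (Nat.coprime_primes (hS _ (hd _)).1 (hS _ (hd _)).1).2 hd12
  set A : Finset ℤ := (Finset.Icc (-(H:ℤ)) H).filter
    (fun h => (d (i 1) : ℤ) ∣ h - c 1 d ∧ (d (i 2) : ℤ) ∣ h - c 2 d) with hA
  have hL1 : L < d (i 1) := (hS _ (hd _)).2
  have hL2 : L < d (i 2) := (hS _ (hd _)).2
  have hAc : A.card ≤ 2 * H / L ^ 2 + 1 := by
    refine (card_le_of_dvd_sub A H (d (i 1) * d (i 2)) (Nat.mul_pos (by omega) (by omega)) ?_ ?_).trans ?_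
    · intro h hh
      have := Finset.mem_Icc.1 (Finset.mem_filter.1 hh).1
      exact abs_le.2 this
    · intro h hh h' hh'
      have e1 := (Finset.mem_filter.1 hh).2
      have e2 := (Finset.mem_filter.1 hh').2
      have f1 := dvd_sub e1.1 e2.1
      have f2 := dvd_sub e1.2 e2.2
      rw [sub_sub_sub_cancel_right] at f1 f2
      push_cast
      exact hcop.mul_dvd f1 f2
    · refine Nat.add_le_add_right (Nat.div_le_div_left ?_ (by positivity)) 1
      rw [pow_two]
      exact Nat.mul_le_mul hL1.le hL2.le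
  refine (card_primes_le T L hL (fun x hx => hS x (hT hx)) A (c 0 d) ?_ ?_).trans
    (Nat.mul_le_mul_left _ hAc)
  · intro h hh
    have := Finset.mem_Icc.1 (Finset.mem_filter.1 hh).1
    exact hsz d hd h (abs_le.2 this)
  · intro x hx
    obtain ⟨hinj, h, hh, e⟩ := hbad x hx
    have hd' : ∀ j, Function.update d (i 0) x j ∈ S := by
      intro j
      by_cases hj : j = i 0
      · subst hj; simpa using hT hx
      · rw [Function.update_of_ne hj]; exact hd j
    have e0 := e 0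
    have e1 := e 1
    have e2 := e 2
    have hne' := hne _ hd' hinj h hh e1
    rw [hc] at hne'
    rw [Function.update_self, hc] at e0
    rw [Function.update_of_ne h01, hc] at e1
    rw [Function.update_of_ne h02, hc] at e2
    exact ⟨h, Finset.mem_filter.2 ⟨Finset.mem_Icc.2 (abs_le.1 hh), e1, e2⟩, hne', e0⟩

/-- Equality of two periods is rare. -/
theorem rare_eq (S : Finset ℕ) (i j : Fin k) (hij : i ≠ j) :
    Rare S 1 (fun d : Fin k → ℕ => d i = d j) := by
  classical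
  refine Rare.line i fun d hd T hT hbad => ?_
  rw [Finset.card_le_one]
  intro x hx y hy
  have h1 := hbad x hx
  have h2 := hbad y hy
  rw [Function.update_self, Function.update_of_ne hij.symm] at h1 h2
  rw [h1, h2]

end Vale.Agent.P321.H328
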