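import Vale.Agent.P321.H328.GenUse
import Vale.Agent.P321.H576.TSpec

/-! The genericity theorem in the form of the `T`-step (`H576.Gen`). -/

namespace Vale.Agent.P321.H328

open Finset

/-- the bound of the multipliers -/
def G0 (k m : ℕ) : ℕ := 4 * (k + 1) ^ 3 * 9 ^ (m * (k.choose 2 + 1))

/-- what the existence of generic periods needs -/
def genCond (k m P X : ℕ) : Prop :=
  (2 ^ 22 : ℝ) * ((k : ℝ) + 1) ^ 3 * ((k.choose 2 : ℝ) + 1) * (G0 k m : ℝ) * Real.log P ≤ X ∧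
  1000 * X ≤ P ∧ 2 ^ 36 ≤ P ∧ 3 ^ m ≤ P ^ 2 / X / 3 ∧ 16 * (P ^ 2 / X / 3) ≤ P ^ 3 / X ∧
  16 * (k ^ 2 * m * (G0 k m * P ^ 2)) ≤ P ^ 3 / X

theorem Ts_eq_TE {k m : ℕ} (d : Fin k → ℕ) (g : Pairs k → Fin m → ℕ)
    (s : Pairs k → Fin m → ℤ) :
    H576.Ts (fun e b => (g e b : ℤ) * dd (fun e : Pairs k => e.1) d e) s
      = TE (fun e : Pairs k => e.1) d g s := by
  unfold H576.Ts H576.Te TE
  refine Finset.sum_congr rfl fun e _ => Finset.sum_congr rfl fun b _ => ?_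
  ring

theorem T0_eq {m : ℕ} (a : Fin m → ℤ) : H576.T0 a = T0 a := rfl

theorem val_bin (b : Bool) : H576.val b = 0 ∨ H576.val b = 1 := by
  cases b
  · exact Or.inl rfl
  · exact Or.inr rfl

theorem val_decide {a : ℤ} (ha : a = 0 ∨ a = 1) : H576.val (decide (a = 1)) = a := by
  rcases ha with h | h
  · subst h; simp [H576.val]
  · subst h; simp [H576.val]

theorem gen_of_generic {k m R Q G P F : ℕ} {d : Fin k → ℕ} {g : Pairs k → Fin m → ℕ}
    (h : Generic (fun e : Pairs k => e.1) m R Q G d g) (hk : 3 ≤ k) (hm : 1 ≤ m)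
    (hP : ∀ i, d i ≤ P) (hF : 3 * F ≤ R) (h3 : 3 ^ m ≤ F) (hFQ : 16 * F ≤ Q)
    (hGQ : 16 * (k ^ 2 * m * (G * P ^ 2)) ≤ Q) :
    H576.Gen (fun i => (d i : ℤ)) (fun e b => (g e b : ℤ) * dd (fun e : Pairs k => e.1) d e)
      (F : ℤ) (Q : ℤ) ((G * P ^ 2 : ℕ) : ℤ) where
  k3 := hk
  m1 := hm
  g0 := fun e b => mul_nonneg (by positivity) (dd_nonneg _ d e)
  gG := fun e b => by
    push_cast
    exact mul_le_mul (by exact_mod_cast h.le e b)
      (dd_le (fun e : Pairs k => e.1) (fun e => e.2) d P hP e) (dd_nonneg _ d e) (by positivity)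
  dvd := fun i e b hi => Dvd.dvd.mul_left (dvd_dd (fun e : Pairs k => e.1) d i e hi) _
  gen1 := fun i δ0 δ h0 h1 hd => by
    rw [Ts_eq_TE, T0_eq] at hd
    by_contra hcon
    refine h.gen1 i δ0 δ h0 (fun e b => (h1 e b).trans (by norm_num)) ?_ hd
    by_contra hno
    push Not at hno
    exact hcon ⟨fun b => congrFun hno.1 b, fun e he b => hno.2 e b he⟩
  gen2 := fun i j hij a ha δ0 δ0' δ δ' h0 h0' h1 h1' hd hd' => by
    rw [Ts_eq_TE, T0_eq] at hd hd'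
    have hR : |a| ≤ R := ha.trans (by exact_mod_cast hF)
    obtain ⟨c, hc, hac⟩ := h.gen2 i j hij a hR δ0 δ δ0' δ' h0 h1 h0' h1' hd hd'
    exact ⟨c, hc, hac⟩
  gen3 := fun t ht i j l hij hil hjl hi hj hl => by
    obtain ⟨n0, n, hi⟩ := hi
    obtain ⟨p0, p, hj⟩ := hj
    obtain ⟨q0, q, hl⟩ := hl
    unfold H576.Z H576.S at hi hj hl
    rw [Ts_eq_TE, T0_eq] at hi hj hl
    have hinj : Function.Injective (![i, j, l] : Fin 3 → Fin k) := by
      intro x y hxy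
      fin_cases x <;> fin_cases y <;> simp_all
    obtain ⟨a₀, s₀, ha₀, hs₀, ht₀⟩ := h.gen3 ![i, j, l] hinj t ht
      ![fun b => H576.val (n0 b), fun b => H576.val (p0 b), fun b => H576.val (q0 b)]
      ![fun e b => H576.val (n e b), fun e b => H576.val (p e b), fun e b => H576.val (q e b)]
      (by intro x b; fin_cases x <;> exact val_bin _)
      (by intro x e b; fin_cases x <;> exact val_bin _)
      (by
        intro x
        fin_cases x
        · simpa using hi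
        · simpa using hj
        · simpa using hl)
    refine ⟨fun b => decide (a₀ b = 1), fun e b => decide (s₀ e b = 1), ?_⟩
    unfold H576.Z H576.S
    rw [Ts_eq_TE, T0_eq, ht₀]
    congr 1
    · congr 1
      funext b
      exact (val_decide (ha₀ b)).symm
    · congr 1
      funext e b
      exact (val_decide (hs₀ e b)).symm
  F3 := by exact_mod_cast h3
  FQ := by exact_mod_cast hFQ
  GQ := by exact_mod_cast hGQ

theorem log_aux {P : ℕ} (hP : 2 ^ 36 ≤ P) : ((Nat.log 2 P + 1 : ℕ) : ℝ) ≤ 2 * Real.log P := by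
  have hP0 : (0:ℝ) < P := by
    have : 0 < P := lt_of_lt_of_le (by norm_num) hP
    exact_mod_cast this
  have h1 : 36 ≤ Nat.log 2 P := Nat.le_log_of_pow_le (by norm_num) hP
  have h2 : (2:ℝ) ^ (Nat.log 2 P) ≤ P := by
    exact_mod_cast Nat.pow_log_le_self 2 (by
      intro h; rw [h] at hP; norm_num at hP)
  have h3 : (Nat.log 2 P : ℝ) * Real.log 2 ≤ Real.log P := by
    rw [← Real.log_pow]
    exact Real.log_le_log (by positivity) h2
  have h4 : (0.69:ℝ) < Real.log 2 := by have := Real.log_two_gt_d9; linarith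
  have h5 : (36:ℝ) ≤ Nat.log 2 P := by exact_mod_cast h1
  push_cast
  nlinarith

/-- **Existence of generic periods, in the form of the `T`-step.** -/
theorem exists_Gen (k m P X : ℕ) (hk : 4 ≤ k) (hm : 1 ≤ m) (h : genCond k m P X) :
    ∃ (d : Fin k → ℤ) (g : H576.E k → Fin m → ℤ),
      H576.Gen d g ((P ^ 2 / X / 3 : ℕ) : ℤ) ((P ^ 3 / X : ℕ) : ℤ) ((G0 k m * P ^ 2 : ℕ) : ℤ) := by
  obtain ⟨hX, hXP, hP36, hF3, hFQ, hGQ⟩ := h
  have hn1 : 1 ≤ k.choose 2 := Nat.choose_pos (by omega)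
  have hnk : k.choose 2 ≤ k ^ 2 := Nat.choose_le_pow k 2
  have hXn : 2 ^ 21 * (k + 1) ^ 6 * (Fintype.card (Pairs k) + 1) *
      9 ^ (m * (k.choose 2 + 1)) * (Nat.log 2 P + 1) ≤ X := by
    rw [card_Pairs]
    have h1 := log_aux hP36
    have h2 : ((2 ^ 21 * (k + 1) ^ 6 * (k.choose 2 + 1) *
      9 ^ (m * (k.choose 2 + 1)) * (Nat.log 2 P + 1) : ℕ) : ℝ) ≤ X := by
      refine le_trans ?_ hX
      have h3 : ((2 ^ 21 * (k + 1) ^ 6 * (k.choose 2 + 1) *
          9 ^ (m * (k.choose 2 + 1)) * (Nat.log 2 P + 1) : ℕ) : ℝ)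
          = ((2:ℝ) ^ 21 * ((k:ℝ) + 1) ^ 6 * ((k.choose 2 : ℝ) + 1) *
            9 ^ (m * (k.choose 2 + 1))) * ((Nat.log 2 P + 1 : ℕ) : ℝ) := by push_cast; ring
      have h4 : (2 ^ 22 : ℝ) * ((k : ℝ) + 1) ^ 3 * ((k.choose 2 : ℝ) + 1) * (G0 k m : ℝ)
            * Real.log P
          = 4 * (((2:ℝ) ^ 21 * ((k:ℝ) + 1) ^ 6 * ((k.choose 2 : ℝ) + 1) *
            9 ^ (m * (k.choose 2 + 1))) * (2 * Real.log P)) := by
        unfold G0; push_cast; ring
      rw [h3, h4]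
      set W := ((2:ℝ) ^ 21 * ((k:ℝ) + 1) ^ 6 * ((k.choose 2 : ℝ) + 1) *
            9 ^ (m * (k.choose 2 + 1))) with hW
      have hW0 : 0 ≤ W := by positivity
      have h5 := mul_le_mul_of_nonneg_left h1 hW0
      have h6 : 0 ≤ W * (2 * Real.log P) := le_trans (by positivity) h5
      linarith
    exact_mod_cast h2
  have hTE : Fintype.card (Pairs k) * m * 1 *
      (4 * (k + 1) ^ 3 * 9 ^ (m * (Fintype.card (Pairs k) + 1))) * P ^ 2 ≤ P ^ 3 / X := by
    rw [card_Pairs]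
    refine le_trans ?_ hGQ
    unfold G0
    calc k.choose 2 * m * 1 * (4 * (k + 1) ^ 3 * 9 ^ (m * (k.choose 2 + 1))) * P ^ 2
        = 1 * (k.choose 2 * m * (4 * (k + 1) ^ 3 * 9 ^ (m * (k.choose 2 + 1)) * P ^ 2)) := by ring
      _ ≤ 16 * (k ^ 2 * m * (4 * (k + 1) ^ 3 * 9 ^ (m * (k.choose 2 + 1)) * P ^ 2)) :=
        Nat.mul_le_mul (by norm_num) (Nat.mul_le_mul_right _ (Nat.mul_le_mul_right _ hnk))
  have h27 : (3 ^ m) ^ 3 ≤ 9 ^ (m * (k.choose 2 + 1)) := by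
    calc (3 ^ m) ^ 3 ≤ (3 ^ m) ^ 4 := Nat.pow_le_pow_right (Nat.one_le_pow _ _ (by norm_num))
          (by norm_num)
      _ = 9 ^ (m * 2) := by
        rw [← pow_mul, show (9:ℕ) = 3 ^ 2 by norm_num, ← pow_mul]
        congr 1; ring
      _ ≤ 9 ^ (m * (k.choose 2 + 1)) :=
        Nat.pow_le_pow_right (by norm_num) (Nat.mul_le_mul_left _ (by omega))
  obtain ⟨d, g, hd, hgen⟩ := exists_generic_A (m := m) (fun e : Pairs k => e.1) (fun e => e.2)
    (9 ^ (m * (k.choose 2 + 1))) X P (by rw [card_Pairs]) h27 hXn hXP hP36 hTE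
  rw [card_Pairs] at hgen
  refine ⟨_, _, gen_of_generic (P := P) (F := P ^ 2 / X / 3) hgen (by omega) hm
    (fun i => (hd i).2) ?_ hF3 hFQ hGQ⟩
  rw [mul_comm]
  exact Nat.div_mul_le_self _ _

end Vale.Agent.P321.H328
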