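import Vale.Agent.P321.H328.Gen

/-! Consequences of genericity in the form used by the `T`-step. -/

namespace Vale.Agent.P321.H328

open Finset

/-- The directions: pairs of trains. -/
abbrev Pairs (k : ℕ) : Type := {e : Finset (Fin k) // e.card = 2}

theorem card_Pairs (k : ℕ) : Fintype.card (Pairs k) = k.choose 2 := by
  have h := Finset.card_powersetCard 2 (Finset.univ : Finset (Fin k))
  rw [Finset.card_univ, Fintype.card_fin] at h
  rw [← h, Fintype.card_subtype]
  congr 1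
  ext e
  simp [Finset.mem_powersetCard]

/-- The genericity theorem for the directions `e = {i, j}`. -/
theorem exists_generic_pairs (k m X P : ℕ)
    (hX : 2 ^ 21 * (k + 1) ^ 6 * (k.choose 2 + 1) * 27 ^ (m * (k.choose 2 + 1))
      * (Nat.log 2 P + 1) ≤ X) (hXP : X ^ 2 ≤ P) :
    ∃ (d : Fin k → ℕ) (g : Pairs k → Fin m → ℕ), (∀ i, P < 8 * d i ∧ d i ≤ P) ∧
      Generic (fun e : Pairs k => e.1) m (P ^ 2 / X) (P ^ 3 / X)
        (4 * (k + 1) ^ 3 * 9 ^ (m * (k.choose 2 + 1))) d g := by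
  have h := exists_generic (m := m) (fun e : Pairs k => e.1) (fun e => e.2) X P
    (by rw [card_Pairs]; exact hX) hXP
  rwa [card_Pairs] at h

section
variable {k m : ℕ} {E : Type*} [Fintype E] {inc : E → Finset (Fin k)} {R Q G : ℕ}
  {d : Fin k → ℕ} {g : E → Fin m → ℕ}

/-- Tops with different binary digits are different, already as digit combinations with
coefficients in `{-2, …, 2}`. -/
theorem Generic.eq_zero_of_sum_eq_zero (h : Generic inc m R Q G d g)
    (hinc : ∀ e, (inc e).card = 2) (hk : 3 ≤ k)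
    (a : Fin m → ℤ) (s : E → Fin m → ℤ) (ha : ∀ b, |a b| ≤ 2) (hs : ∀ e b, |s e b| ≤ 2)
    (h0 : T0 a + TE inc d g s = 0) : a = 0 ∧ s = 0 := by
  classical
  have hs0 : s = 0 := by
    by_contra hne
    obtain ⟨e, he⟩ := Function.ne_iff.1 hne
    obtain ⟨b, hb⟩ := Function.ne_iff.1 he
    obtain ⟨i, hi⟩ : ∃ i, i ∉ inc e := by
      by_contra hcon
      push Not at hcon
      have : (inc e) = Finset.univ := Finset.eq_univ_iff_forall.2 hcon
      have h2 := hinc e
      rw [this, Finset.card_univ, Fintype.card_fin] at h2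
      omega
    exact h.gen1 i a s ha hs (Or.inr ⟨e, b, hi, hb⟩) (by rw [h0]; exact dvd_zero _)
  refine ⟨?_, hs0⟩
  by_contra ha0
  exact h.gen1 ⟨0, by omega⟩ a s ha hs (Or.inl ha0) (by rw [h0]; exact dvd_zero _)

theorem Generic.top_injective (h : Generic inc m R Q G d g)
    (hinc : ∀ e, (inc e).card = 2) (hk : 3 ≤ k)
    (a a' : Fin m → ℤ) (s s' : E → Fin m → ℤ)
    (ha : ∀ b, a b = 0 ∨ a b = 1) (ha' : ∀ b, a' b = 0 ∨ a' b = 1)
    (hs : ∀ e b, s e b = 0 ∨ s e b = 1) (hs' : ∀ e b, s' e b = 0 ∨ s' e b = 1)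
    (heq : T0 a + TE inc d g s = T0 a' + TE inc d g s') : a = a' ∧ s = s' := by
  have habs : ∀ x y : ℤ, (x = 0 ∨ x = 1) → (y = 0 ∨ y = 1) → |x - y| ≤ 2 := by
    rintro x y (rfl | rfl) (rfl | rfl) <;> norm_num
  obtain ⟨h1, h2⟩ := h.eq_zero_of_sum_eq_zero hinc hk (fun b => a b - a' b)
    (fun e b => s e b - s' e b) (fun b => habs _ _ (ha b) (ha' b))
    (fun e b => habs _ _ (hs e b) (hs' e b)) (by rw [T0_sub, TE_sub]; linarith)
  constructor
  · funext b
    have := congrFun h1 b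
    simp only [Pi.zero_apply] at this
    linarith
  · funext e b
    have := congrFun (congrFun h2 e) b
    simp only [Pi.zero_apply] at this
    linarith

theorem T0_nonneg (a : Fin m → ℤ) (ha : ∀ b, a b = 0 ∨ a b = 1) : 0 ≤ T0 a := by
  unfold T0
  refine Finset.sum_nonneg fun b _ => ?_
  rcases ha b with h | h <;> rw [h] <;> positivity

theorem T0_lt (a : Fin m → ℤ) (ha : ∀ b, a b = 0 ∨ a b = 1) : T0 a < 3 ^ m := by
  have h1 := abs_T0_le 1 a (fun b => by rcases ha b with h | h <;> simp [h])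
  have h2 := le_abs_self (T0 a)
  have h3 : (1:ℤ) ≤ 3 ^ m := one_le_pow₀ (by norm_num)
  have h4 := abs_nonneg (T0 a)
  linarith

theorem TE_nonneg (s : E → Fin m → ℤ) (hs : ∀ e b, s e b = 0 ∨ s e b = 1) :
    0 ≤ TE inc d g s := by
  unfold TE
  refine Finset.sum_nonneg fun e _ => Finset.sum_nonneg fun b _ => ?_
  have := dd_nonneg inc d e
  rcases hs e b with h | h <;> rw [h]
  · simp
  · positivity

theorem Generic.TE_le (h : Generic inc m R Q G d g) (hinc : ∀ e, (inc e).card = 2)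
    (P : ℕ) (hP : ∀ i, d i ≤ P) (s : E → Fin m → ℤ) (hs : ∀ e b, s e b = 0 ∨ s e b = 1) :
    TE inc d g s ≤ (Fintype.card E * m * G * P ^ 2 : ℕ) := by
  have h1 := abs_TE_le inc hinc d g G P 1 hP h.le s
    (fun e b => by rcases hs e b with h | h <;> simp [h])
  refine (le_abs_self _).trans (h1.trans ?_)
  push_cast
  linarith

end

end Vale.Agent.P321.H328
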